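import Vale.Agent.P119.GC.Count

/-!
# The exclusion indicators are negligible

* `prob_not_cmp_le`: a tuple is incompatible with the gas with probability `O(ε)`;
* `pi_not_pw_le`: tuples which are not pairwise compatible have relative measure `O(ε / μ)`;
* `gnz_PP_ge`: the lower bound in the GNZ formula without exclusion indicators, for bounded `F`.
-/

open MeasureTheory Set Filter Topology
open scoped ENNReal

namespace Vale.Agent.P119.GC

variable {f₀ : Ph → ℝ} {κ ε : ℝ}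

theorem inten_near_le (h : GoodDatum f₀ κ) (hε : 0 < ε) (a : Ph) :
    inten f₀ ε {z | ¬ Cx ε a z} ≤ ENNReal.ofReal (κ * ε) := by
  have h1 : {z : Ph | ¬ Cx ε a z} = {z | ‖a.1 - z.1‖ ≤ ε} := by
    ext z
    simp [Cx]
  rw [h1, inten, Measure.smul_apply, smul_eq_mul]
  calc ENNReal.ofReal (mu ε) * law f₀ {z | ‖a.1 - z.1‖ ≤ ε}
      ≤ ENNReal.ofReal (mu ε) * ENNReal.ofReal (κ * ε ^ 3) := by
        gcongr
        exact h.ball ε hε a.1
    _ = ENNReal.ofReal (κ * ε) := by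
        rw [← ENNReal.ofReal_mul (mu_pos hε).le]
        congr 1
        unfold mu
        field_simp

theorem inten_near_le' (h : GoodDatum f₀ κ) (hε : 0 < ε) (a : Ph) :
    inten f₀ ε {z | ¬ Cx ε z a} ≤ ENNReal.ofReal (κ * ε) := by
  have h1 : {z : Ph | ¬ Cx ε z a} = {z | ¬ Cx ε a z} := by
    ext z
    exact not_congr ⟨fun h => Cx_symm ε _ _ h, fun h => Cx_symm ε _ _ h⟩
  rw [h1]
  exact inten_near_le h hε a

theorem measurableSet_near (ε : ℝ) (a : Ph) : MeasurableSet {z | ¬ Cx ε a z} := by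
  have h1 : MeasurableSet {z | Cx ε a z} :=
    (measurable_const.prodMk measurable_id : Measurable fun z : Ph => (a, z)) (measurableSet_Cx ε)
  exact h1.compl

/-- The indicator of the points near `a`. -/
noncomputable def near (ε : ℝ) (a : Ph) : Ph → ℝ≥0∞ :=
  {z : Ph | ¬ Cx ε a z}.indicator fun _ => (1 : ℝ≥0∞)

theorem measurable_near (ε : ℝ) (a : Ph) : Measurable (near ε a) :=
  measurable_const.indicator (measurableSet_near ε a)

theorem near_of (a b : Ph) (h : ¬ Cx ε a b) : near ε a b = 1 :=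
  indicator_of_mem (s := {z : Ph | ¬ Cx ε a z}) h _

theorem lintegral_near (ν : Measure Ph) (a : Ph) :
    ∫⁻ z, near ε a z ∂ν = ν {z | ¬ Cx ε a z} := by
  unfold near
  rw [lintegral_indicator (measurableSet_near ε a), lintegral_one, Measure.restrict_apply_univ]

/-- Integrals over `1`-tuples. -/
theorem lintegral_pi_one (ν : Measure Ph) [SigmaFinite ν] {g : Ph → ℝ≥0∞} (hg : Measurable g) :
    ∫⁻ z : Fin 1 → Ph, g (z 0) ∂(Measure.pi fun _ : Fin 1 => ν) = ∫⁻ x, g x ∂ν :=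
  (measurePreserving_funUnique ν (Fin 1)).lintegral_comp hg

/-- First moment of a sum over the points. -/
theorem lintegral_sum_one_le (h : GoodDatum f₀ κ) (hε : 0 ≤ ε) {g : Ph → ℝ≥0∞}
    (hg : Measurable g) :
    ∫⁻ c, ∑ z ∈ tup 1 (pts c), g (z 0) ∂(PP f₀ ε) ≤ ∫⁻ x, g x ∂(inten f₀ ε) := by
  classical
  have := isFiniteMeasure_inten (ε := ε) h
  have := isProbability_PP (ε := ε) h
  have hF : Measurable fun p : (Fin 1 → Ph) × Conf Ph => g (p.1 0) :=
    hg.comp ((measurable_pi_apply (0 : Fin 1)).comp measurable_fst)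
  have h1 := gnz_PP_le (ε := ε) h hε 1 (F := fun z _ => g (z 0)) hF
  refine h1.trans ?_
  simp only [lintegral_const, measure_univ, mul_one]
  rw [lintegral_pi_one _ hg]

theorem measurable_sum_one {g : Ph → ℝ≥0∞} (hg : Measurable g) :
    Measurable fun c : Conf Ph => ∑ σ : Fin 1 ↪ Fin c.1, g ((c.2 ∘ σ) 0) := by
  have hF : Measurable fun p : (Fin 1 → Ph) × Conf Ph => g (p.1 0) :=
    hg.comp ((measurable_pi_apply (0 : Fin 1)).comp measurable_fst)
  exact measurable_sum_labels (F := fun (y : Fin 1 → Ph) (_ : Conf Ph) => g (y 0)) hF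

theorem aemeasurable_sum_one (hε : 0 ≤ ε) {g : Ph → ℝ≥0∞} (hg : Measurable g) :
    AEMeasurable (fun c : Conf Ph => ∑ z ∈ tup 1 (pts c), g (z 0)) (PP f₀ ε) := by
  refine ⟨_, measurable_sum_one hg, ?_⟩
  filter_upwards [ae_injective hε] with c hc
  obtain ⟨N, Z⟩ := c
  exact sum_tup hc _

/-- A given tuple is incompatible with the gas with probability `O(ε)`. -/
theorem prob_not_cmp_le (h : GoodDatum f₀ κ) (hε : 0 < ε) {n : ℕ} (z : Fin n → Ph) :
    PP f₀ ε {c | ¬ Cmp (Cx ε) z (pts c)} ≤ n * ENNReal.ofReal (κ * ε) := by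
  classical
  have h1 : {c : Conf Ph | ¬ Cmp (Cx ε) z (pts c)} ⊆
      ⋃ i, {c | 1 ≤ ∑ y ∈ tup 1 (pts c), near ε (z i) (y 0)} := by
    intro c hc
    obtain ⟨i, hi⟩ := not_forall.1 hc
    obtain ⟨a, hi⟩ := not_forall.1 hi
    obtain ⟨ha, hia⟩ := not_forall.1 hi
    refine mem_iUnion.2 ⟨i, ?_⟩
    have h2 : (fun _ : Fin 1 => a) ∈ tup 1 (pts c) :=
      mem_tup.2 ⟨fun _ => ha, fun i j _ => Subsingleton.elim i j⟩
    have h3 := Finset.single_le_sum (f := fun y : Fin 1 → Ph => near ε (z i) (y 0))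
      (fun _ _ => zero_le) h2
    exact (near_of _ _ hia).symm.le.trans h3
  refine (measure_mono h1).trans ((measure_iUnion_le _).trans ?_)
  rw [tsum_fintype]
  have h4 : ∀ i : Fin n, PP f₀ ε {c | 1 ≤ ∑ y ∈ tup 1 (pts c), near ε (z i) (y 0)} ≤
      ENNReal.ofReal (κ * ε) := by
    intro i
    have h2 := meas_ge_le_lintegral_div (aemeasurable_sum_one (f₀ := f₀) hε.le
      (measurable_near ε (z i))) one_ne_zero ENNReal.one_ne_top
    rw [div_one] at h2
    refine h2.trans ((lintegral_sum_one_le h hε.le (measurable_near ε (z i))).trans ?_)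
    rw [lintegral_near]
    exact inten_near_le h hε (z i)
  refine (Finset.sum_le_sum fun i _ => h4 i).trans ?_
  rw [Finset.sum_const, Finset.card_univ, Fintype.card_fin, nsmul_eq_mul]

/-- Two components of a tuple are rarely near each other. -/
theorem pi_near_le (h : GoodDatum f₀ κ) (hε : 0 < ε) {n : ℕ} {i j : Fin (n + 1)} (hij : i ≠ j) :
    (Measure.pi fun _ : Fin (n + 1) => inten f₀ ε) {z | ¬ Cx ε (z i) (z j)} ≤
      ENNReal.ofReal (κ * ε) * ENNReal.ofReal (mu ε) ^ n := by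
  have := isFiniteMeasure_inten (ε := ε) h
  obtain ⟨k, hk⟩ := Fin.exists_succAbove_eq hij.symm
  have hmp := measurePreserving_piFinSuccAbove (fun _ : Fin (n + 1) => inten f₀ ε) i
  have hS : MeasurableSet {p : Ph × (Fin n → Ph) | ¬ Cx ε p.1 (p.2 k)} := by
    have h1 : Measurable fun p : Ph × (Fin n → Ph) => (p.1, p.2 k) := by fun_prop
    exact (h1 (measurableSet_Cx ε)).compl
  have h1 : {z : Fin (n + 1) → Ph | ¬ Cx ε (z i) (z j)} =
      (MeasurableEquiv.piFinSuccAbove (fun _ => Ph) i) ⁻¹'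
        {p : Ph × (Fin n → Ph) | ¬ Cx ε p.1 (p.2 k)} := by
    ext z
    simp only [mem_ofPred_eq, mem_preimage, MeasurableEquiv.piFinSuccAbove_apply]
    rw [← hk]
    rfl
  rw [h1, hmp.measure_preimage hS.nullMeasurableSet, Measure.prod_apply_symm hS]
  calc ∫⁻ y : Fin n → Ph, inten f₀ ε ((fun x => (x, y)) ⁻¹'
        {p : Ph × (Fin n → Ph) | ¬ Cx ε p.1 (p.2 k)})
        ∂(Measure.pi fun j => inten f₀ ε)
      ≤ ∫⁻ _ : Fin n → Ph, ENNReal.ofReal (κ * ε) ∂(Measure.pi fun _ => inten f₀ ε) := by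
        refine lintegral_mono fun y => ?_
        exact inten_near_le' h hε (y k)
    _ = ENNReal.ofReal (κ * ε) * ENNReal.ofReal (mu ε) ^ n := by
        rw [lintegral_const, Measure.pi_univ]
        simp only [inten_univ h, Finset.prod_const, Finset.card_univ, Fintype.card_fin]

/-- Tuples that are not pairwise compatible. -/
theorem pi_not_pw_le (h : GoodDatum f₀ κ) (hε : 0 < ε) (n : ℕ) :
    (Measure.pi fun _ : Fin n => inten f₀ ε) {z | ¬ PW (Cx ε) z} ≤
      (n : ℝ≥0∞) ^ 2 * (ENNReal.ofReal (κ * ε) * ENNReal.ofReal (mu ε) ^ (n - 1)) := by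
  classical
  rcases n with _ | n
  · have h1 : {z : Fin 0 → Ph | ¬ PW (Cx ε) z} = ∅ := by
      ext z
      simp only [mem_ofPred_eq, mem_empty_iff_false, iff_false, not_not]
      exact fun i => i.elim0
    rw [h1, measure_empty]
    exact zero_le
  have h1 : {z : Fin (n + 1) → Ph | ¬ PW (Cx ε) z} ⊆
      ⋃ p : Fin (n + 1) × Fin (n + 1), {z | p.1 ≠ p.2 ∧ ¬ Cx ε (z p.1) (z p.2)} := by
    intro z hz
    simp only [mem_ofPred_eq, PW, not_forall] at hz
    obtain ⟨i, j, hij, hne⟩ := hz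
    exact mem_iUnion.2 ⟨(i, j), hij, hne⟩
  refine (measure_mono h1).trans ((measure_iUnion_le _).trans ?_)
  rw [tsum_fintype]
  calc ∑ p : Fin (n + 1) × Fin (n + 1), (Measure.pi fun _ : Fin (n + 1) => inten f₀ ε)
        {z | p.1 ≠ p.2 ∧ ¬ Cx ε (z p.1) (z p.2)}
      ≤ ∑ _p : Fin (n + 1) × Fin (n + 1), ENNReal.ofReal (κ * ε) * ENNReal.ofReal (mu ε) ^ n := by
        refine Finset.sum_le_sum fun p _ => ?_
        by_cases hp : p.1 = p.2
        · have h2 : {z : Fin (n + 1) → Ph | p.1 ≠ p.2 ∧ ¬ Cx ε (z p.1) (z p.2)} = ∅ := by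
            ext z
            simp [hp]
          rw [h2, measure_empty]
          exact zero_le
        · refine (measure_mono fun z hz => ?_).trans (pi_near_le h hε hp)
          exact hz.2
    _ = _ := by
        rw [Finset.sum_const, Finset.card_univ, Fintype.card_prod, Fintype.card_fin,
          nsmul_eq_mul, Nat.add_sub_cancel]
        push_cast
        ring

/-- **Lower bound in the GNZ formula, for bounded functionals.** -/
theorem gnz_PP_ge [dec : DecidableEq Ph] (h : GoodDatum f₀ κ) (hε : 0 < ε) (hε1 : ε ≤ 1) (n : ℕ)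
    {F : (Fin n → Ph) → Finset Ph → ℝ≥0∞} {M : ℝ≥0∞} (hM : ∀ z w, F z w ≤ M)
    (hF : Measurable fun p : (Fin n → Ph) × Conf Ph => F p.1 (pts p.2)) :
    ∫⁻ z, ∫⁻ c, F z (pts c) ∂(PP f₀ ε) ∂(Measure.pi fun _ : Fin n => inten f₀ ε) ≤
      ∫⁻ c, ∑ z ∈ tup n (pts c), F z (pts c \ Finset.univ.image z) ∂(PP f₀ ε) +
        M * (2 * (n : ℝ≥0∞) ^ 2 * (ENNReal.ofReal (κ * ε) * ENNReal.ofReal (mu ε) ^ n)) := by
  have := isFiniteMeasure_inten (ε := ε) h
  have := isProbability_PP (ε := ε) h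
  set π := Measure.pi fun _ : Fin n => inten f₀ ε with hπ
  have mPW : MeasurableSet {z : Fin n → Ph | PW (Cx ε) z} := measurableSet_PW (measurableSet_Cx ε)
  have mC := measurableSet_Cmp (measurableSet_Cx ε) n
  have mCz : ∀ z : Fin n → Ph, MeasurableSet {c : Conf Ph | Cmp (Cx ε) z (pts c)} := fun z =>
    (measurable_const.prodMk measurable_id : Measurable fun c : Conf Ph => (z, c)) mC
  have hμ1 : 1 ≤ ENNReal.ofReal (mu ε) := ENNReal.one_le_ofReal.2 (mu_ge_one hε hε1)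
  rw [gnz_PP h hε.le n hF]
  -- the inner splitting
  have h1 : ∀ z : Fin n → Ph, ∫⁻ c, F z (pts c) ∂(PP f₀ ε) ≤
      ∫⁻ c in {c | Cmp (Cx ε) z (pts c)}, F z (pts c) ∂(PP f₀ ε) +
        M * (n * ENNReal.ofReal (κ * ε)) := by
    intro z
    rw [← lintegral_add_compl _ (mCz z)]
    gcongr
    calc ∫⁻ c in {c | Cmp (Cx ε) z (pts c)}ᶜ, F z (pts c) ∂(PP f₀ ε)
        ≤ ∫⁻ _ in {c | Cmp (Cx ε) z (pts c)}ᶜ, M ∂(PP f₀ ε) := lintegral_mono fun c => hM z _
      _ = M * PP f₀ ε {c | ¬ Cmp (Cx ε) z (pts c)} := by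
          rw [lintegral_const, Measure.restrict_apply_univ]
          rfl
      _ ≤ _ := by
          gcongr
          exact prob_not_cmp_le h hε z
  have h2 : ∀ z : Fin n → Ph, ∫⁻ c, F z (pts c) ∂(PP f₀ ε) ≤ M := by
    intro z
    calc ∫⁻ c, F z (pts c) ∂(PP f₀ ε) ≤ ∫⁻ _, M ∂(PP f₀ ε) := lintegral_mono fun c => hM z _
      _ = M := by rw [lintegral_const, measure_univ, mul_one]
  rw [← lintegral_add_compl _ mPW]
  have h3 : ∫⁻ z in {z | PW (Cx ε) z}, ∫⁻ c, F z (pts c) ∂(PP f₀ ε) ∂π ≤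
      ∫⁻ z in {z | PW (Cx ε) z}, ∫⁻ c in {c | Cmp (Cx ε) z (pts c)}, F z (pts c) ∂(PP f₀ ε) ∂π +
        M * (n * ENNReal.ofReal (κ * ε)) * ENNReal.ofReal (mu ε) ^ n := by
    refine (lintegral_mono fun z => h1 z).trans ?_
    rw [lintegral_add_right _ measurable_const, lintegral_const]
    gcongr
    rw [Measure.restrict_apply_univ]
    refine (measure_mono (subset_univ _)).trans (le_of_eq ?_)
    rw [hπ, Measure.pi_univ]
    simp only [inten_univ h, Finset.prod_const, Finset.card_univ, Fintype.card_fin]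
  have h4 : ∫⁻ z in {z | PW (Cx ε) z}ᶜ, ∫⁻ c, F z (pts c) ∂(PP f₀ ε) ∂π ≤
      M * ((n : ℝ≥0∞) ^ 2 * (ENNReal.ofReal (κ * ε) * ENNReal.ofReal (mu ε) ^ n)) := by
    calc ∫⁻ z in {z | PW (Cx ε) z}ᶜ, ∫⁻ c, F z (pts c) ∂(PP f₀ ε) ∂π
        ≤ ∫⁻ _ in {z | PW (Cx ε) z}ᶜ, M ∂π := lintegral_mono fun z => h2 z
      _ = M * π {z | ¬ PW (Cx ε) z} := by
          rw [lintegral_const, Measure.restrict_apply_univ]
          rfl
      _ ≤ M * ((n : ℝ≥0∞) ^ 2 * (ENNReal.ofReal (κ * ε) * ENNReal.ofReal (mu ε) ^ (n - 1))) := by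
          gcongr
          exact pi_not_pw_le h hε n
      _ ≤ _ := by
          gcongr M * ((n : ℝ≥0∞) ^ 2 * (ENNReal.ofReal (κ * ε) * ?_))
          exact pow_le_pow_right₀ hμ1 (Nat.sub_le n 1)
  refine (add_le_add h3 h4).trans ?_
  rw [add_assoc]
  gcongr
  have hn : (n : ℝ≥0∞) ≤ (n : ℝ≥0∞) ^ 2 := by
    rcases n with _ | n
    · simp
    · exact le_self_pow₀ (by exact_mod_cast Nat.succ_le_succ (Nat.zero_le n)) two_ne_zero
  calc M * (n * ENNReal.ofReal (κ * ε)) * ENNReal.ofReal (mu ε) ^ n +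
        M * ((n : ℝ≥0∞) ^ 2 * (ENNReal.ofReal (κ * ε) * ENNReal.ofReal (mu ε) ^ n))
      ≤ M * ((n : ℝ≥0∞) ^ 2 * ENNReal.ofReal (κ * ε)) * ENNReal.ofReal (mu ε) ^ n +
        M * ((n : ℝ≥0∞) ^ 2 * (ENNReal.ofReal (κ * ε) * ENNReal.ofReal (mu ε) ^ n)) := by
        gcongr
    _ = _ := by ring

end Vale.Agent.P119.GC
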