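import Vale.Agent.P119.GC.GNZ
import Vale.Agent.P119.Bdl.B4

/-!
# The grand-canonical law of the problem as a probability measure on configurations
-/

open MeasureTheory Set Filter Topology
open scoped ENNReal

namespace Vale.Agent.P119.GC

/-- Positions at distance `> ε`. -/
def Cx (ε : ℝ) (z z' : Ph) : Prop := ε < ‖z.1 - z'.1‖

theorem Cx_symm (ε : ℝ) : ∀ a b : Ph, Cx ε a b → Cx ε b a := fun a b h => by
  unfold Cx at *
  rwa [norm_sub_rev]

theorem Cx_irrefl {ε : ℝ} (hε : 0 ≤ ε) : ∀ a : Ph, ¬ Cx ε a a := fun a h => by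
  unfold Cx at h
  simp at h
  linarith

theorem measurableSet_Cx (ε : ℝ) : MeasurableSet {p : Ph × Ph | Cx ε p.1 p.2} :=
  measurableSet_lt measurable_const (by fun_prop)

theorem pw_Cx {ε : ℝ} {N : ℕ} {Z : Fin N → Ph} : PW (Cx ε) Z ↔ Z ∈ excl ε N := Iff.rfl

/-- The intensity `μ f₀ dz`. -/
noncomputable def inten (f₀ : Ph → ℝ) (ε : ℝ) : Measure Ph := ENNReal.ofReal (mu ε) • law f₀

/-- The grand-canonical law. -/
noncomputable def PP (f₀ : Ph → ℝ) (ε : ℝ) : Measure (Conf Ph) := gc (inten f₀ ε) (Cx ε)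

theorem mu_pos {ε : ℝ} (hε : 0 < ε) : 0 < mu ε := by
  unfold mu
  positivity

theorem pi_smul_const {ι : Type*} [Fintype ι] (c : ℝ≥0∞) (hc : c ≠ ∞) (m : Measure Ph)
    [IsFiniteMeasure m] :
    (Measure.pi fun _ : ι => c • m) = c ^ Fintype.card ι • Measure.pi fun _ : ι => m := by
  have : IsFiniteMeasure (c • m) := ⟨by
    rw [Measure.smul_apply, smul_eq_mul]
    exact ENNReal.mul_lt_top hc.lt_top (measure_lt_top _ _)⟩
  refine Measure.pi_eq fun s _ => ?_
  rw [Measure.smul_apply, Measure.pi_pi, smul_eq_mul]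
  simp only [Measure.smul_apply, smul_eq_mul]
  rw [Finset.prod_mul_distrib, Finset.prod_const, Finset.card_univ]

variable {f₀ : Ph → ℝ} {κ ε : ℝ}

theorem isFiniteMeasure_inten (h : GoodDatum f₀ κ) : IsFiniteMeasure (inten f₀ ε) := by
  have := isProbabilityMeasure_law h.nonneg h.integrable h.integral_eq
  exact ⟨by
    rw [inten, Measure.smul_apply, smul_eq_mul]
    exact ENNReal.mul_lt_top ENNReal.ofReal_lt_top (measure_lt_top _ _)⟩

theorem isProbability_PP (h : GoodDatum f₀ κ) : IsProbabilityMeasure (PP f₀ ε) := by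
  have := isFiniteMeasure_inten (ε := ε) h
  unfold PP
  infer_instance

theorem pre_eq (h : GoodDatum f₀ κ) (hε : 0 < ε) {F : Conf Ph → ℝ≥0∞} (hF : Measurable F) :
    ∫⁻ c, F c ∂(pre (inten f₀ ε) (Cx ε)) =
      ∑' N : ℕ, ENNReal.ofReal (aw (mu ε) N) *
        ∫⁻ Z in excl ε N, F ⟨N, Z⟩ ∂(Measure.pi fun _ : Fin N => law f₀) := by
  have := isProbabilityMeasure_law h.nonneg h.integrable h.integral_eq
  rw [lintegral_pre _ _ hF]
  refine tsum_congr fun N => ?_
  have e : (Measure.pi fun _ : Fin N => inten f₀ ε) =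
      ENNReal.ofReal (mu ε) ^ N • Measure.pi fun _ : Fin N => law f₀ := by
    have := pi_smul_const (ι := Fin N) (ENNReal.ofReal (mu ε)) ENNReal.ofReal_ne_top (law f₀)
    simpa [inten] using this
  rw [e, Measure.restrict_smul, lintegral_smul_measure, smul_eq_mul, ← mul_assoc]
  congr 1
  rw [aw, ENNReal.ofReal_div_of_pos (by positivity), ENNReal.ofReal_natCast,
    ENNReal.div_eq_inv_mul, ENNReal.ofReal_pow (mu_pos hε).le]

theorem pre_univ_eq (h : GoodDatum f₀ κ) (hε : 0 < ε) :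
    pre (inten f₀ ε) (Cx ε) univ = ENNReal.ofReal (partitionFn f₀ ε) := by
  have := isProbabilityMeasure_law h.nonneg h.integrable h.integral_eq
  have h1 := pre_eq h hε (F := fun _ => 1) measurable_const
  rw [lintegral_one] at h1
  rw [h1, partitionFn_eq, ENNReal.ofReal_tsum_of_nonneg]
  · refine tsum_congr fun N => ?_
    rw [ENNReal.ofReal_mul (aw_nonneg (mu_pos hε).le N), setLIntegral_one,
      integral_wt h.meas h.nonneg h.integrable, measureReal_def,
      ENNReal.ofReal_toReal (measure_ne_top _ _)]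
  · exact fun N => mul_nonneg (aw_nonneg (mu_pos hε).le N)
      (integral_nonneg fun Z => wt_nonneg h.nonneg ε Z)
  · have := summable_aw_desc (μ := mu ε) 0 _ 1 (mu_pos hε).le (h.canSeq hε).abs_le
    simpa using this

theorem lintegral_PP (h : GoodDatum f₀ κ) (hε : 0 < ε) {F : Conf Ph → ℝ≥0∞}
    (hF : Measurable F) :
    ∫⁻ c, F c ∂(PP f₀ ε) = (ENNReal.ofReal (partitionFn f₀ ε))⁻¹ *
      ∑' N : ℕ, ENNReal.ofReal (aw (mu ε) N) *
        ∫⁻ Z in excl ε N, F ⟨N, Z⟩ ∂(Measure.pi fun _ : Fin N => law f₀) := by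
  rw [PP, lintegral_gc, pre_univ_eq h hε, pre_eq h hε hF]

/-- Almost surely all distances are `> ε`. -/
theorem ae_excl (f₀ : Ph → ℝ) (ε : ℝ) : ∀ᵐ c ∂(PP f₀ ε), c.2 ∈ excl ε c.1 :=
  ae_PW (measurableSet_Cx ε)

/-- The expectation of the problem is an integral with respect to `PP`. -/
theorem expect_eq_lintegral (h : GoodDatum f₀ κ) (hε : 0 < ε)
    {g : (N : ℕ) → (Fin N → Ph) → ℝ} {G : Conf Ph → ℝ≥0∞} (hG : Measurable G)
    (hgG : ∀ N Z, Z ∈ excl ε N → ENNReal.ofReal (g N Z) = G ⟨N, Z⟩ ∧ 0 ≤ g N Z)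
    (hfin : ∫⁻ c, G c ∂(PP f₀ ε) ≠ ∞) :
    expect f₀ ε g = (∫⁻ c, G c ∂(PP f₀ ε)).toReal := by
  have hlaw := isProbabilityMeasure_law h.nonneg h.integrable h.integral_eq
  have hcs := h.canSeq hε
  have hΞ : 0 < partitionFn f₀ ε := by
    rw [partitionFn_eq]
    exact hcs.partition_pos (mu_pos hε)
  rw [lintegral_PP h hε hG] at hfin ⊢
  rw [expect_eq, ENNReal.toReal_mul, ENNReal.toReal_inv, ENNReal.toReal_ofReal hΞ.le]
  congr 1
  have hfin' : ∑' N : ℕ, ENNReal.ofReal (aw (mu ε) N) *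
        ∫⁻ Z in excl ε N, G ⟨N, Z⟩ ∂(Measure.pi fun _ : Fin N => law f₀) ≠ ∞ := by
    intro htop
    rw [htop, ENNReal.mul_top (ENNReal.inv_ne_zero.2 ENNReal.ofReal_ne_top)] at hfin
    exact hfin rfl
  have hterm : ∀ N : ℕ, ENNReal.ofReal (aw (mu ε) N) *
        ∫⁻ Z in excl ε N, G ⟨N, Z⟩ ∂(Measure.pi fun _ : Fin N => law f₀) ≠ ∞ := fun N =>
    ne_top_of_le_ne_top hfin' (ENNReal.le_tsum N)
  rw [ENNReal.tsum_toReal_eq hterm]
  refine tsum_congr fun N => ?_
  rw [ENNReal.toReal_mul, ENNReal.toReal_ofReal (aw_nonneg (mu_pos hε).le N),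
    integral_wt_mul h.meas h.nonneg h.integrable]
  congr 1
  have hGN : Measurable fun Z : Fin N → Ph => G ⟨N, Z⟩ := hG.comp (measurable_mk N)
  have h1 : ∫ Z in excl ε N, g N Z ∂(Measure.pi fun _ : Fin N => law f₀) =
      ∫ Z in excl ε N, (G ⟨N, Z⟩).toReal ∂(Measure.pi fun _ : Fin N => law f₀) := by
    refine setIntegral_congr_fun (measurableSet_excl ε N) fun Z hZ => ?_
    have := (hgG N Z hZ).1
    rw [← this, ENNReal.toReal_ofReal (hgG N Z hZ).2]
  rw [h1]
  have h2 := integral_eq_lintegral_of_nonneg_ae (μ := (Measure.pi fun _ : Fin N => law f₀).restrict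
    (excl ε N)) (f := fun Z => (G ⟨N, Z⟩).toReal) (Eventually.of_forall fun _ =>
      ENNReal.toReal_nonneg) hGN.ennreal_toReal.aestronglyMeasurable
  rw [h2]
  congr 1
  refine setLIntegral_congr_fun (measurableSet_excl ε N) fun Z hZ => ?_
  rw [ENNReal.ofReal_toReal]
  rw [← (hgG N Z hZ).1]
  exact ENNReal.ofReal_ne_top

end Vale.Agent.P119.GC
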