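import Vale.Agent.P119.GC.Basic

/-!
# The GNZ (Mecke) formula for the grand-canonical law
-/

open MeasureTheory Set
open scoped ENNReal

namespace Vale.Agent.P119.GC

variable {α : Type*}

section Comb

variable {n N : ℕ}

/-- An enumeration of `Fin N` starting with the labels `σ`. -/
noncomputable def ext (σ : Fin n ↪ Fin N) : Fin n ⊕ Fin (N - n) ≃ Fin N :=
  ((Equiv.ofInjective σ σ.injective).sumCongr
    (Fintype.equivFinOfCardEq (α := ((range σ)ᶜ : Set (Fin N))) (by
      classical
      rw [Fintype.card_compl_set, ← Set.toFinset_card, Set.toFinset_range,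
        Finset.card_image_of_injective _ σ.injective]
      simp)).symm).trans (Equiv.Set.sumCompl (range σ))

@[simp] theorem ext_inl (σ : Fin n ↪ Fin N) (i : Fin n) : ext σ (Sum.inl i) = σ i := by
  simp [ext]

/-- The remaining points. -/
noncomputable def rest (σ : Fin n ↪ Fin N) (Z : Fin N → α) : Conf α :=
  ⟨N - n, fun j => Z (ext σ (Sum.inr j))⟩

open Classical in
/-- The injective `n`-tuples of points of `w`. -/
noncomputable def tup (n : ℕ) (w : Finset α) : Finset (Fin n → α) :=
  (Fintype.piFinset fun _ => w).filter Function.Injective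

theorem mem_tup {w : Finset α} {z : Fin n → α} :
    z ∈ tup n w ↔ (∀ i, z i ∈ w) ∧ Function.Injective z := by
  classical
  simp [tup, Fintype.mem_piFinset]

/-- Sums over tuples of points are sums over tuples of labels. -/
theorem sum_tup {M : Type*} [AddCommMonoid M] {Z : Fin N → α} (hZ : Function.Injective Z)
    (G : (Fin n → α) → M) : ∑ z ∈ tup n (pts ⟨N, Z⟩), G z = ∑ σ : Fin n ↪ Fin N, G (Z ∘ σ) := by
  symm
  refine Finset.sum_bij (fun σ _ => Z ∘ σ) (fun σ _ => ?_) (fun σ _ τ _ h => ?_) (fun z hz => ?_)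
    (fun σ _ => rfl)
  · rw [mem_tup]
    exact ⟨fun i => mem_pts_mk Z _ |>.2 ⟨σ i, rfl⟩, hZ.comp σ.injective⟩
  · ext i
    exact congrArg Fin.val (hZ (congrFun h i))
  · obtain ⟨h1, h2⟩ := mem_tup.1 hz
    choose s hs using fun i => (mem_pts_mk Z _).1 (h1 i)
    refine ⟨⟨s, fun i j hij => h2 (by rw [← hs i, ← hs j, hij])⟩, Finset.mem_univ _, ?_⟩
    funext i
    exact hs i

open Classical in
/-- The points that are not selected. -/
theorem pts_rest {Z : Fin N → α} (hZ : Function.Injective Z) (σ : Fin n ↪ Fin N) :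
    pts (rest σ Z) = pts ⟨N, Z⟩ \ Finset.univ.image (Z ∘ σ) := by
  ext a
  rw [Finset.mem_sdiff, mem_pts_mk, Finset.mem_image, rest, mem_pts_mk]
  constructor
  · rintro ⟨j, rfl⟩
    refine ⟨⟨_, rfl⟩, ?_⟩
    rintro ⟨i, -, h⟩
    have h' := hZ h
    rw [← ext_inl σ i] at h'
    exact Sum.inl_ne_inr ((ext σ).injective h')
  · rintro ⟨⟨k, rfl⟩, h⟩
    obtain ⟨x, rfl⟩ := (ext σ).surjective k
    rcases x with i | j
    · exact absurd ⟨i, Finset.mem_univ _, by rw [Function.comp, ext_inl]⟩ h
    · exact ⟨j, rfl⟩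

end Comb

/-- Every point of `w` is compatible with every `z i`. -/
def Cmp (C : α → α → Prop) {ι : Type*} (z : ι → α) (w : Finset α) : Prop :=
  ∀ i, ∀ a ∈ w, C (z i) a

theorem PW.injective {C : α → α → Prop} (hirr : ∀ a, ¬ C a a) {ι : Type*} {z : ι → α} (h : PW C z) :
    Function.Injective z := by
  intro i j hij
  by_contra hne
  have := h i j hne
  rw [hij] at this
  exact hirr _ this

theorem pw_elim {C : α → α → Prop} (hsym : ∀ a b, C a b → C b a) {ι κ : Type*} {z : ι → α} {W : κ → α} :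
    PW C (Sum.elim z W) ↔ PW C z ∧ PW C W ∧ ∀ i j, C (z i) (W j) := by
  constructor
  · intro h
    exact ⟨fun i j hij => h (Sum.inl i) (Sum.inl j) (by simpa using hij),
      fun i j hij => h (Sum.inr i) (Sum.inr j) (by simpa using hij),
      fun i j => h (Sum.inl i) (Sum.inr j) (by simp)⟩
  · rintro ⟨h1, h2, h3⟩ (i | i) (j | j) hij
    · exact h1 i j (by simpa using hij)
    · exact h3 i j
    · exact hsym _ _ (h3 j i)
    · exact h2 i j (by simpa using hij)

theorem pw_comp_equiv {C : α → α → Prop} {ι κ : Type*} (e : ι ≃ κ) {Z : κ → α} : PW C (Z ∘ e) ↔ PW C Z := by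
  constructor
  · intro h i j hij
    have := h (e.symm i) (e.symm j) (by simpa using hij)
    simpa using this
  · intro h i j hij
    exact h (e i) (e j) (by simpa using hij)

variable [MeasurableSpace α] {ν : Measure α} {C : α → α → Prop}

theorem measurable_rest {n N : ℕ} (σ : Fin n ↪ Fin N) :
    Measurable fun Z : Fin N → α => rest σ Z := by
  have h := (measurable_mk (α := α) (N - n)).comp
    (measurable_pi_iff.2 fun j => measurable_pi_apply (ext σ (Sum.inr j)) :
      Measurable fun (Z : Fin N → α) (j : Fin (N - n)) => Z (ext σ (Sum.inr j)))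
  exact h

theorem measurableSet_PW (hC : MeasurableSet {p : α × α | C p.1 p.2}) {ι : Type*} [Countable ι] :
    MeasurableSet {Z : ι → α | PW C Z} := by
  have : {Z : ι → α | PW C Z} = ⋂ i, ⋂ j, ⋂ (_ : i ≠ j), {Z | C (Z i) (Z j)} := by
    ext Z; simp [PW]
  rw [this]
  refine MeasurableSet.iInter fun i => MeasurableSet.iInter fun j => MeasurableSet.iInter fun _ => ?_
  exact measurableSet_preimage
    (f := fun Z : ι → α => (Z i, Z j)) ((measurable_pi_apply i).prodMk (measurable_pi_apply j)) hC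

theorem measurableSet_Cmp (hC : MeasurableSet {p : α × α | C p.1 p.2}) (n : ℕ) :
    MeasurableSet {p : (Fin n → α) × Conf α | Cmp C p.1 (pts p.2)} := by
  have h : Measurable fun p : (Fin n → α) × Conf α => Cmp C p.1 (pts p.2) := by
    rw [measurable_prod_conf]
    intro N
    have : MeasurableSet {p : (Fin n → α) × (Fin N → α) | Cmp C p.1 (pts ⟨N, p.2⟩)} := by
      have e : {p : (Fin n → α) × (Fin N → α) | Cmp C p.1 (pts ⟨N, p.2⟩)} =
          ⋂ i, ⋂ j, {p | C (p.1 i) (p.2 j)} := by
        ext p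
        simp only [Cmp, mem_pts_mk, mem_iInter]
        constructor
        · intro h i j; exact h i _ ⟨j, rfl⟩
        · rintro h i a ⟨j, rfl⟩; exact h i j
      rw [e]
      refine MeasurableSet.iInter fun i => MeasurableSet.iInter fun j => ?_
      exact measurableSet_preimage (f := fun p : (Fin n → α) × (Fin N → α) => (p.1 i, p.2 j))
        (((measurable_pi_apply i).comp measurable_fst).prodMk
          ((measurable_pi_apply j).comp measurable_snd)) hC
    exact measurable_to_prop (by simpa [preimage] using this)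
  exact measurableSet_setOfPred.2 h

/-- One choice of labels. -/
theorem lintegral_split [SigmaFinite ν] (hC : MeasurableSet {p : α × α | C p.1 p.2})
    (hsym : ∀ a b, C a b → C b a) {n N : ℕ} (σ : Fin n ↪ Fin N)
    {G : (Fin n → α) → (Fin (N - n) → α) → ℝ≥0∞}
    (hG : Measurable fun p : (Fin n → α) × (Fin (N - n) → α) => G p.1 p.2) :
    ∫⁻ Z in {Z | PW C Z}, G (Z ∘ σ) (fun j => Z (ext σ (Sum.inr j)))
      ∂(Measure.pi fun _ : Fin N => ν) =
    ∫⁻ z in {z | PW C z}, ∫⁻ W in {W | PW C W ∧ ∀ i j, C (z i) (W j)}, G z W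
      ∂(Measure.pi fun _ : Fin (N - n) => ν) ∂(Measure.pi fun _ : Fin n => ν) := by
  have mS : ∀ {ι : Type} [Countable ι], MeasurableSet {Z : ι → α | PW C Z} :=
    measurableSet_PW hC
  rw [← lintegral_indicator mS]
  -- reindex
  have h1 := (measurePreserving_piCongrLeft (α := fun _ : Fin N => α) (fun _ => ν)
    (ext σ)).lintegral_comp_emb (MeasurableEquiv.measurableEmbedding _)
    ({Z : Fin N → α | PW C Z}.indicator
      (fun Z => G (Z ∘ σ) (fun j => Z (ext σ (Sum.inr j)))))
  rw [← h1]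
  have h2 := (measurePreserving_sumPiEquivProdPi_symm (X := fun _ : Fin n ⊕ Fin (N - n) => α)
    (fun _ => ν)).lintegral_comp_emb (MeasurableEquiv.measurableEmbedding _)
    (fun Y => {Z : Fin N → α | PW C Z}.indicator
      (fun Z => G (Z ∘ σ) (fun j => Z (ext σ (Sum.inr j))))
      (MeasurableEquiv.piCongrLeft (fun _ : Fin N => α) (ext σ) Y))
  rw [← h2]
  have key : ∀ p : (Fin n → α) × (Fin (N - n) → α),
      {Z : Fin N → α | PW C Z}.indicator
        (fun Z => G (Z ∘ σ) (fun j => Z (ext σ (Sum.inr j))))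
        (MeasurableEquiv.piCongrLeft (fun _ : Fin N => α) (ext σ)
          ((MeasurableEquiv.sumPiEquivProdPi (fun _ : Fin n ⊕ Fin (N - n) => α)).symm p)) =
      {z : Fin n → α | PW C z}.indicator (fun z =>
        {W : Fin (N - n) → α | PW C W ∧ ∀ i j, C (z i) (W j)}.indicator (fun W => G z W) p.2)
        p.1 := by
    intro p
    set Y := (MeasurableEquiv.sumPiEquivProdPi (fun _ : Fin n ⊕ Fin (N - n) => α)).symm p with hY
    set Z := MeasurableEquiv.piCongrLeft (fun _ : Fin N => α) (ext σ) Y with hZ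
    have e0 : ∀ x, Z (ext σ x) = Y x := fun x => by
      rw [hZ, MeasurableEquiv.coe_piCongrLeft, Equiv.piCongrLeft_apply_apply]
    have e1 : Z ∘ σ = p.1 := by
      funext i
      rw [Function.comp, ← ext_inl, e0]; rfl
    have e2 : (fun j => Z (ext σ (Sum.inr j))) = p.2 := by
      funext j
      rw [e0]; rfl
    have e3 : PW C Z ↔ PW C (Sum.elim p.1 p.2) := by
      rw [← pw_comp_equiv (ext σ)]
      have : Z ∘ ext σ = Sum.elim p.1 p.2 := by
        funext x
        rw [Function.comp, e0]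
        rcases x with i | j <;> rfl
      rw [this]
    simp only [indicator]
    rw [e1, e2]
    by_cases h : PW C Z
    · have h' := (pw_elim hsym).1 (e3.1 h)
      have a1 : Z ∈ {Z : Fin N → α | PW C Z} := h
      have a2 : p.1 ∈ {z : Fin n → α | PW C z} := h'.1
      have a3 : p.2 ∈ {W : Fin (N - n) → α | PW C W ∧ ∀ i j, C (p.1 i) (W j)} := h'.2
      rw [if_pos a1, if_pos a2, if_pos a3]
    · have a1 : Z ∉ {Z : Fin N → α | PW C Z} := h
      rw [if_neg a1]
      split_ifs with a2 a3
      · exact absurd (e3.2 ((pw_elim hsym).2 ⟨a2, a3⟩)) h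
      · rfl
      · rfl
  simp_rw [key]
  have mcross : ∀ z : Fin n → α,
      MeasurableSet {W : Fin (N - n) → α | PW C W ∧ ∀ i j, C (z i) (W j)} := by
    intro z
    have h : MeasurableSet {W : Fin (N - n) → α | ∀ i j, C (z i) (W j)} := by
      have : {W : Fin (N - n) → α | ∀ i j, C (z i) (W j)} = ⋂ i, ⋂ j, {W | C (z i) (W j)} := by
        ext; simp
      rw [this]
      refine MeasurableSet.iInter fun i => MeasurableSet.iInter fun j => ?_
      exact measurableSet_preimage (f := fun W : Fin (N - n) → α => (z i, W j))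
        (measurable_const.prodMk (measurable_pi_apply j)) hC
    exact mS.inter h
  rw [lintegral_prod _ ?_, ← lintegral_indicator mS]
  · refine lintegral_congr fun z => ?_
    by_cases hz : z ∈ {z : Fin n → α | PW C z}
    · simp only [indicator_of_mem hz]
      rw [lintegral_indicator (mcross z)]
    · simp only [indicator_of_notMem hz, lintegral_zero]
  · refine Measurable.aemeasurable ?_
    have : (fun p : (Fin n → α) × (Fin (N - n) → α) =>
        {z : Fin n → α | PW C z}.indicator (fun z =>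
        {W : Fin (N - n) → α | PW C W ∧ ∀ i j, C (z i) (W j)}.indicator (fun W => G z W) p.2)
        p.1) = {p : (Fin n → α) × (Fin (N - n) → α) | PW C (Sum.elim p.1 p.2)}.indicator
          (fun p => G p.1 p.2) := by
      funext p
      simp only [indicator]
      by_cases h : PW C (Sum.elim p.1 p.2)
      · have h' := (pw_elim hsym).1 h
        have a1 : p ∈ {p : (Fin n → α) × (Fin (N - n) → α) | PW C (Sum.elim p.1 p.2)} := h
        have a2 : p.1 ∈ {z : Fin n → α | PW C z} := h'.1
        have a3 : p.2 ∈ {W : Fin (N - n) → α | PW C W ∧ ∀ i j, C (p.1 i) (W j)} := h'.2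
        rw [if_pos a1, if_pos a2, if_pos a3]
      · have a1 : p ∉ {p : (Fin n → α) × (Fin (N - n) → α) | PW C (Sum.elim p.1 p.2)} := h
        rw [if_neg a1]
        split_ifs with a2 a3
        · exact absurd ((pw_elim hsym).2 ⟨a2, a3⟩) h
        · rfl
        · rfl
    rw [this]
    refine hG.indicator ?_
    exact measurableSet_preimage (f := fun p : (Fin n → α) × (Fin (N - n) → α) =>
      (Sum.elim p.1 p.2 : Fin n ⊕ Fin (N - n) → α)) (measurable_pi_iff.2 fun x => by
        rcases x with i | j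
        · exact (measurable_pi_apply i).comp measurable_fst
        · exact (measurable_pi_apply j).comp measurable_snd) (measurableSet_PW hC)

theorem rest_mk_zero_of_lt {n N : ℕ} (h : N < n) : IsEmpty (Fin n ↪ Fin N) := by
  refine ⟨fun σ => ?_⟩
  have := Fintype.card_le_of_embedding σ
  simp at this
  omega

/-- Fixed number of points. -/
theorem gnz_fixed [SigmaFinite ν] (hC : MeasurableSet {p : α × α | C p.1 p.2})
    (hsym : ∀ a b, C a b → C b a) (n m : ℕ) {F : (Fin n → α) → Conf α → ℝ≥0∞}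
    (hF : Measurable fun p : (Fin n → α) × Conf α => F p.1 p.2) :
    ((n + m).factorial : ℝ≥0∞)⁻¹ * ∫⁻ Z in {Z | PW C Z}, ∑ σ : Fin n ↪ Fin (n + m),
      F (Z ∘ σ) (rest σ Z) ∂(Measure.pi fun _ : Fin (n + m) => ν) =
    (m.factorial : ℝ≥0∞)⁻¹ * ∫⁻ z in {z | PW C z}, ∫⁻ W in {W | PW C W ∧ ∀ i j, C (z i) (W j)},
      F z ⟨m, W⟩ ∂(Measure.pi fun _ : Fin m => ν) ∂(Measure.pi fun _ : Fin n => ν) := by
  have hm : n + m - n = m := by omega
  have hG : ∀ k, Measurable fun p : (Fin n → α) × (Fin k → α) => F p.1 ⟨k, p.2⟩ := fun k =>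
    hF.comp (measurable_fst.prodMk ((measurable_mk k).comp measurable_snd))
  have hsum : ∀ σ : Fin n ↪ Fin (n + m), ∫⁻ Z in {Z | PW C Z}, F (Z ∘ σ) (rest σ Z)
      ∂(Measure.pi fun _ : Fin (n + m) => ν) =
      ∫⁻ z in {z | PW C z}, ∫⁻ W in {W | PW C W ∧ ∀ i j, C (z i) (W j)},
        F z ⟨m, W⟩ ∂(Measure.pi fun _ : Fin m => ν) ∂(Measure.pi fun _ : Fin n => ν) := by
    intro σ
    have h := lintegral_split (ν := ν) hC hsym σ (G := fun z W => F z ⟨n + m - n, W⟩)
      (hG (n + m - n))
    refine h.trans ?_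
    rw [hm]
  rw [lintegral_finsetSum _ (fun σ _ => ?_)]
  · rw [Finset.sum_congr rfl fun σ _ => hsum σ, Finset.sum_const, Finset.card_univ,
      Fintype.card_embedding_eq, Fintype.card_fin, Fintype.card_fin, nsmul_eq_mul, ← mul_assoc]
    congr 1
    have hf : ((n + m).factorial : ℝ≥0∞) = (m.factorial : ℝ≥0∞) * ((n + m).descFactorial n : ℕ) := by
      rw [← Nat.cast_mul]
      congr 1
      have := Nat.factorial_mul_descFactorial (n := n + m) (k := n) (by omega)
      rw [hm] at this
      exact this.symm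
    rw [hf, ENNReal.mul_inv (Or.inr (ENNReal.natCast_ne_top _)) (Or.inl (ENNReal.natCast_ne_top _)),
      mul_assoc, ENNReal.inv_mul_cancel, mul_one]
    · have : 0 < (n + m).descFactorial n := Nat.descFactorial_pos.2 (by omega)
      exact_mod_cast this.ne'
    · exact ENNReal.natCast_ne_top _
  · have h1 : Measurable fun Z : Fin (n + m) → α => (Z ∘ σ, rest σ Z) :=
      (measurable_pi_iff.2 fun i => measurable_pi_apply (σ i)).prodMk (measurable_rest σ)
    exact hF.comp h1

theorem ae_pre_PW (hC : MeasurableSet {p : α × α | C p.1 p.2}) : ∀ᵐ c ∂(pre ν C), PW C c.2 := by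
  have hm : MeasurableSet {c : Conf α | ¬ PW C c.2} := by
    rw [measurableSet_conf]
    intro N
    exact (measurableSet_PW (ι := Fin N) hC).compl
  rw [ae_iff, pre, Measure.sum_apply _ hm, ENNReal.tsum_eq_zero]
  intro N
  rw [Measure.map_apply (measurable_mk N) hm, Measure.smul_apply, smul_eq_mul]
  refine mul_eq_zero_of_right _ ?_
  rw [Measure.restrict_apply ((measurable_mk N) hm)]
  convert measure_empty (μ := Measure.pi fun _ : Fin N => ν) using 2
  ext Z
  simp [mk]

/-- The labelled form of the left-hand side of the GNZ formula. -/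
theorem measurable_sum_labels {n : ℕ} {F : (Fin n → α) → Conf α → ℝ≥0∞}
    (hF : Measurable fun p : (Fin n → α) × Conf α => F p.1 p.2) :
    Measurable fun c : Conf α => ∑ σ : Fin n ↪ Fin c.1, F (c.2 ∘ σ) (rest σ c.2) := by
  rw [measurable_conf]
  intro N
  change Measurable fun Z : Fin N → α => ∑ σ : Fin n ↪ Fin N, F (Z ∘ σ) (rest σ Z)
  refine Finset.measurable_sum (f := fun (σ : Fin n ↪ Fin N) (Z : Fin N → α) =>
    F (Z ∘ σ) (rest σ Z)) _ fun σ _ => ?_
  have h1 : Measurable fun Z : Fin N → α => (Z ∘ σ, rest σ Z) :=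
    (measurable_pi_iff.2 fun i => measurable_pi_apply (σ i)).prodMk (measurable_rest σ)
  exact hF.comp h1

/-- **GNZ formula**, labelled, unnormalised. -/
theorem gnz_labels [SigmaFinite ν] (hC : MeasurableSet {p : α × α | C p.1 p.2})
    (hsym : ∀ a b, C a b → C b a) (n : ℕ) {F : (Fin n → α) → Conf α → ℝ≥0∞}
    (hF : Measurable fun p : (Fin n → α) × Conf α => F p.1 p.2) :
    ∫⁻ c, ∑ σ : Fin n ↪ Fin c.1, F (c.2 ∘ σ) (rest σ c.2) ∂(pre ν C) =
    ∫⁻ z in {z | PW C z}, ∫⁻ c in {c | Cmp C z (pts c)}, F z c ∂(pre ν C)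
      ∂(Measure.pi fun _ : Fin n => ν) := by
  have mCmp := measurableSet_Cmp hC n
  have mCmp' : ∀ z : Fin n → α, MeasurableSet {c | Cmp C z (pts c)} := fun z =>
    measurable_prodMk_left (x := z) mCmp
  have hFz : ∀ z, Measurable (F z) := fun z => hF.comp measurable_prodMk_left
  have hH : Measurable fun p : (Fin n → α) × Conf α =>
      {c | Cmp C p.1 (pts c)}.indicator (F p.1) p.2 := by
    have : (fun p : (Fin n → α) × Conf α => {c | Cmp C p.1 (pts c)}.indicator (F p.1) p.2) =
        {p : (Fin n → α) × Conf α | Cmp C p.1 (pts p.2)}.indicator (fun p => F p.1 p.2) := by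
      funext p
      simp only [indicator]
      rfl
    rw [this]
    exact hF.indicator mCmp
  rw [lintegral_pre ν C (measurable_sum_labels hF)]
  -- remove the terms with fewer than `n` points
  have h0 : ∀ N ∈ Finset.range n, (N.factorial : ℝ≥0∞)⁻¹ * ∫⁻ Z in {Z | PW C Z},
      ∑ σ : Fin n ↪ Fin N, F (Z ∘ σ) (rest σ Z) ∂(Measure.pi fun _ : Fin N => ν) = 0 := by
    intro N hN
    have := rest_mk_zero_of_lt (Finset.mem_range.1 hN)
    simp
  have hshift := (ENNReal.summable (f := fun N => ((N + n).factorial : ℝ≥0∞)⁻¹ *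
    ∫⁻ Z in {Z | PW C Z}, ∑ σ : Fin n ↪ Fin (N + n), F (Z ∘ σ) (rest σ Z)
      ∂(Measure.pi fun _ : Fin (N + n) => ν))).sum_add_tsum_nat_add'
      (f := fun N => (N.factorial : ℝ≥0∞)⁻¹ * ∫⁻ Z in {Z | PW C Z},
      ∑ σ : Fin n ↪ Fin N, F (Z ∘ σ) (rest σ Z) ∂(Measure.pi fun _ : Fin N => ν))
  rw [Finset.sum_eq_zero h0, zero_add] at hshift
  rw [← hshift]
  have h1 : ∀ m : ℕ, ((m + n).factorial : ℝ≥0∞)⁻¹ * ∫⁻ Z in {Z | PW C Z},
      ∑ σ : Fin n ↪ Fin (m + n), F (Z ∘ σ) (rest σ Z) ∂(Measure.pi fun _ : Fin (m + n) => ν) =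
      (m.factorial : ℝ≥0∞)⁻¹ * ∫⁻ z in {z | PW C z},
        ∫⁻ W in {W | PW C W ∧ ∀ i j, C (z i) (W j)}, F z ⟨m, W⟩ ∂(Measure.pi fun _ : Fin m => ν)
        ∂(Measure.pi fun _ : Fin n => ν) := by
    intro m
    rw [← gnz_fixed hC hsym n m hF, add_comm m n]
  rw [tsum_congr h1]
  -- the right-hand side
  have h2 : ∀ z : Fin n → α, ∫⁻ c in {c | Cmp C z (pts c)}, F z c ∂(pre ν C) =
      ∑' m : ℕ, (m.factorial : ℝ≥0∞)⁻¹ *
        ∫⁻ W in {W | PW C W ∧ ∀ i j, C (z i) (W j)}, F z ⟨m, W⟩
          ∂(Measure.pi fun _ : Fin m => ν) := by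
    intro z
    rw [← lintegral_indicator (mCmp' z), lintegral_pre ν C ((hFz z).indicator (mCmp' z))]
    refine tsum_congr fun m => ?_
    congr 1
    have hs : MeasurableSet {W : Fin m → α | ∀ i j, C (z i) (W j)} := by
      have : {W : Fin m → α | ∀ i j, C (z i) (W j)} = ⋂ i, ⋂ j, {W | C (z i) (W j)} := by
        ext; simp
      rw [this]
      refine MeasurableSet.iInter fun i => MeasurableSet.iInter fun j => ?_
      exact measurableSet_preimage (f := fun W : Fin m → α => (z i, W j))
        (measurable_const.prodMk (measurable_pi_apply j)) hC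
    have e : {W : Fin m → α | PW C W ∧ ∀ i j, C (z i) (W j)} =
        {W : Fin m → α | ∀ i j, C (z i) (W j)} ∩ {W | PW C W} := by
      ext W; exact and_comm
    rw [e, ← Measure.restrict_restrict hs, ← lintegral_indicator hs]
    refine lintegral_congr fun W => ?_
    simp only [indicator]
    have : (⟨m, W⟩ : Conf α) ∈ {c | Cmp C z (pts c)} ↔ W ∈ {W : Fin m → α | ∀ i j, C (z i) (W j)} := by
      constructor
      · intro h i j
        exact h i _ ((mem_pts_mk W _).2 ⟨j, rfl⟩)
      · intro h i a ha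
        obtain ⟨j, rfl⟩ := (mem_pts_mk W _).1 ha
        exact h i j
    by_cases h : W ∈ {W : Fin m → α | ∀ i j, C (z i) (W j)}
    · rw [if_pos h, if_pos (this.2 h)]
    · rw [if_neg h, if_neg (fun h' => h (this.1 h'))]
  rw [lintegral_congr h2]
  rw [lintegral_tsum]
  · refine tsum_congr fun m => ?_
    rw [lintegral_const_mul']
    exact ENNReal.inv_ne_top.2 (by exact_mod_cast (Nat.factorial_pos m).ne')
  · intro m
    refine (Measurable.const_mul ?_ _).aemeasurable
    have hm : Measurable fun p : (Fin n → α) × (Fin m → α) =>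
        {p : (Fin n → α) × (Fin m → α) | PW C p.2 ∧ ∀ i j, C (p.1 i) (p.2 j)}.indicator
          (fun p => F p.1 ⟨m, p.2⟩) p := by
      refine (hF.comp (measurable_fst.prodMk ((measurable_mk m).comp measurable_snd))).indicator ?_
      refine (measurable_snd (measurableSet_PW (ι := Fin m) hC)).inter ?_
      have : {p : (Fin n → α) × (Fin m → α) | ∀ i j, C (p.1 i) (p.2 j)} =
          ⋂ i, ⋂ j, {p | C (p.1 i) (p.2 j)} := by
        ext; simp
      have h' : MeasurableSet {p : (Fin n → α) × (Fin m → α) | ∀ i j, C (p.1 i) (p.2 j)} := by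
        rw [this]
        refine MeasurableSet.iInter fun i => MeasurableSet.iInter fun j => ?_
        exact measurableSet_preimage (f := fun p : (Fin n → α) × (Fin m → α) => (p.1 i, p.2 j))
          (((measurable_pi_apply i).comp measurable_fst).prodMk
            ((measurable_pi_apply j).comp measurable_snd)) hC
      exact h'
    have h3 := hm.lintegral_prod_right' (ν := Measure.pi fun _ : Fin m => ν)
    convert h3 using 2 with z
    have hs : MeasurableSet {W : Fin m → α | PW C W ∧ ∀ i j, C (z i) (W j)} := by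
      refine (measurableSet_PW (ι := Fin m) hC).inter ?_
      have : {W : Fin m → α | ∀ i j, C (z i) (W j)} = ⋂ i, ⋂ j, {W | C (z i) (W j)} := by
        ext; simp
      have h' : MeasurableSet {W : Fin m → α | ∀ i j, C (z i) (W j)} := by
        rw [this]
        refine MeasurableSet.iInter fun i => MeasurableSet.iInter fun j => ?_
        exact measurableSet_preimage (f := fun W : Fin m → α => (z i, W j))
          (measurable_const.prodMk (measurable_pi_apply j)) hC
      exact h'
    rw [← lintegral_indicator hs]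
    rfl

open Classical in
/-- **GNZ formula**, unnormalised. -/
theorem gnz_pre [SigmaFinite ν] (hC : MeasurableSet {p : α × α | C p.1 p.2})
    (hsym : ∀ a b, C a b → C b a) (hirr : ∀ a, ¬ C a a) (n : ℕ)
    {F : (Fin n → α) → Finset α → ℝ≥0∞}
    (hF : Measurable fun p : (Fin n → α) × Conf α => F p.1 (pts p.2)) :
    ∫⁻ c, ∑ z ∈ tup n (pts c), F z (pts c \ Finset.univ.image z) ∂(pre ν C) =
    ∫⁻ z in {z | PW C z}, ∫⁻ c in {c | Cmp C z (pts c)}, F z (pts c) ∂(pre ν C)
      ∂(Measure.pi fun _ : Fin n => ν) := by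
  rw [← gnz_labels hC hsym n hF]
  refine lintegral_congr_ae ?_
  filter_upwards [ae_pre_PW (ν := ν) hC] with c hc
  obtain ⟨N, Z⟩ := c
  have hZ : Function.Injective Z := PW.injective hirr hc
  rw [sum_tup hZ]
  exact Finset.sum_congr rfl fun σ _ => by rw [pts_rest hZ]

open Classical in
/-- **GNZ formula** for the grand-canonical law. -/
theorem gnz [SigmaFinite ν] (hC : MeasurableSet {p : α × α | C p.1 p.2})
    (hsym : ∀ a b, C a b → C b a) (hirr : ∀ a, ¬ C a a) (n : ℕ)
    {F : (Fin n → α) → Finset α → ℝ≥0∞}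
    (hF : Measurable fun p : (Fin n → α) × Conf α => F p.1 (pts p.2)) :
    ∫⁻ c, ∑ z ∈ tup n (pts c), F z (pts c \ Finset.univ.image z) ∂(gc ν C) =
    ∫⁻ z in {z | PW C z}, ∫⁻ c in {c | Cmp C z (pts c)}, F z (pts c) ∂(gc ν C)
      ∂(Measure.pi fun _ : Fin n => ν) := by
  rw [lintegral_gc, gnz_pre hC hsym hirr n hF]
  have mCmp := measurableSet_Cmp hC n
  have mCmp' : ∀ z : Fin n → α, MeasurableSet {c | Cmp C z (pts c)} := fun z =>
    measurable_prodMk_left (x := z) mCmp
  by_cases hfin : (pre ν C univ)⁻¹ = ∞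
  · exact absurd hfin (ENNReal.inv_ne_top.2 pre_univ_ne_zero)
  rw [← lintegral_const_mul' _ _ hfin]
  refine lintegral_congr fun z => ?_
  rw [gc, Measure.restrict_smul, lintegral_smul_measure, smul_eq_mul]

open Classical in
/-- The upper bound obtained by dropping the exclusion. -/
theorem gnz_le [SigmaFinite ν] (hC : MeasurableSet {p : α × α | C p.1 p.2})
    (hsym : ∀ a b, C a b → C b a) (hirr : ∀ a, ¬ C a a) (n : ℕ)
    {F : (Fin n → α) → Finset α → ℝ≥0∞}
    (hF : Measurable fun p : (Fin n → α) × Conf α => F p.1 (pts p.2)) :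
    ∫⁻ c, ∑ z ∈ tup n (pts c), F z (pts c \ Finset.univ.image z) ∂(gc ν C) ≤
    ∫⁻ z, ∫⁻ c, F z (pts c) ∂(gc ν C) ∂(Measure.pi fun _ : Fin n => ν) := by
  rw [gnz hC hsym hirr n hF]
  refine (setLIntegral_le_lintegral _ _).trans ?_
  exact lintegral_mono fun z => setLIntegral_le_lintegral _ _

end Vale.Agent.P119.GC
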