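import Vale.Agent.P119.GC.Moments

/-!
# Moments of the number of particles, and tuples with a bad component
-/

open MeasureTheory Set Filter Topology
open scoped ENNReal

namespace Vale.Agent.P119.GC

variable {f₀ : Ph → ℝ} {κ ε : ℝ}

theorem measurable_num : Measurable fun c : Conf Ph => (c.1 : ℝ≥0∞) := by
  rw [measurable_conf]
  exact fun N => (measurable_const : Measurable fun _ : Fin N → Ph => (N : ℝ≥0∞))

theorem ae_injective (hε : 0 ≤ ε) : ∀ᵐ c ∂(PP f₀ ε), Function.Injective c.2 := by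
  filter_upwards [ae_excl f₀ ε] with c hc
  exact PW.injective (Cx_irrefl hε) (pw_Cx.2 hc)

/-- The factorial moments of the number of labels. -/
theorem lintegral_descFactorial_le (h : GoodDatum f₀ κ) (hε : 0 ≤ ε) (n : ℕ) :
    ∫⁻ c, ((c.1.descFactorial n : ℕ) : ℝ≥0∞) ∂(PP f₀ ε) ≤ ENNReal.ofReal (mu ε) ^ n := by
  refine le_trans (le_of_eq ?_) (lintegral_card_tup_le h hε n)
  refine lintegral_congr_ae ?_
  filter_upwards [ae_injective hε] with c hc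
  rw [card_tup, card_pts hc]

theorem pow_le_descFactorial (k N : ℕ) :
    N ^ k ≤ (2 * k) ^ k + 2 ^ k * N.descFactorial k := by
  rcases le_total N (2 * k) with h | h
  · exact (Nat.pow_le_pow_left h k).trans (Nat.le_add_right _ _)
  · have h1 := Nat.pow_sub_le_descFactorial N k
    have h2 : N ≤ 2 * (N + 1 - k) := by omega
    calc N ^ k ≤ (2 * (N + 1 - k)) ^ k := Nat.pow_le_pow_left h2 k
      _ = 2 ^ k * (N + 1 - k) ^ k := by rw [mul_pow]
      _ ≤ 2 ^ k * N.descFactorial k := Nat.mul_le_mul_left _ h1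
      _ ≤ _ := Nat.le_add_left _ _

/-- The constant of the moment bounds. -/
def cMom (k : ℕ) : ℕ := (2 * k) ^ k + 2 ^ k

theorem mu_ge_one {ε : ℝ} (hε : 0 < ε) (h1 : ε ≤ 1) : 1 ≤ mu ε := by
  unfold mu
  have : ε ^ 2 ≤ 1 := pow_le_one₀ hε.le h1
  exact (one_le_inv₀ (by positivity)).2 this

/-- The moments of the number of labels. -/
theorem lintegral_num_pow_le (h : GoodDatum f₀ κ) (hε : 0 < ε) (h1 : ε ≤ 1) (k : ℕ) :
    ∫⁻ c, (c.1 : ℝ≥0∞) ^ k ∂(PP f₀ ε) ≤ (cMom k : ℝ≥0∞) * ENNReal.ofReal (mu ε) ^ k := by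
  have := isProbability_PP (ε := ε) h
  have hμ : 1 ≤ ENNReal.ofReal (mu ε) := ENNReal.one_le_ofReal.2 (mu_ge_one hε h1)
  calc ∫⁻ c, (c.1 : ℝ≥0∞) ^ k ∂(PP f₀ ε)
      ≤ ∫⁻ c, (((2 * k) ^ k : ℕ) : ℝ≥0∞) + ((2 ^ k : ℕ) : ℝ≥0∞) *
          ((c.1.descFactorial k : ℕ) : ℝ≥0∞) ∂(PP f₀ ε) := by
        refine lintegral_mono fun c => ?_
        have h2 := pow_le_descFactorial k c.1
        have h3 : ((c.1 ^ k : ℕ) : ℝ≥0∞) ≤
          (((2 * k) ^ k + 2 ^ k * c.1.descFactorial k : ℕ) : ℝ≥0∞) := Nat.cast_le.2 h2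
        simpa only [Nat.cast_pow, Nat.cast_add, Nat.cast_mul] using h3
    _ = (((2 * k) ^ k : ℕ) : ℝ≥0∞) + ((2 ^ k : ℕ) : ℝ≥0∞) *
          ∫⁻ c, ((c.1.descFactorial k : ℕ) : ℝ≥0∞) ∂(PP f₀ ε) := by
        rw [lintegral_add_left measurable_const, lintegral_const, measure_univ, mul_one,
          lintegral_const_mul]
        rw [measurable_conf]
        exact fun N => (measurable_const :
          Measurable fun _ : Fin N → Ph => ((N.descFactorial k : ℕ) : ℝ≥0∞))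
    _ ≤ (((2 * k) ^ k : ℕ) : ℝ≥0∞) * ENNReal.ofReal (mu ε) ^ k + ((2 ^ k : ℕ) : ℝ≥0∞) *
          ENNReal.ofReal (mu ε) ^ k := by
        gcongr
        · conv_lhs => rw [← mul_one (((2 * k) ^ k : ℕ) : ℝ≥0∞)]
          gcongr
          exact one_le_pow₀ hμ
        · exact lintegral_descFactorial_le h hε.le k
    _ = (cMom k : ℝ≥0∞) * ENNReal.ofReal (mu ε) ^ k := by
        rw [cMom, Nat.cast_add, add_mul]

open Classical in
/-- The tuples with a component in `B`. -/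
noncomputable def tupBad (s : ℕ) (w B : Finset Ph) : Finset (Fin s → Ph) :=
  (tup s w).filter fun z => ∃ k, z k ∈ B

theorem mem_tupBad {s : ℕ} {w B : Finset Ph} {z : Fin s → Ph} :
    z ∈ tupBad s w B ↔ z ∈ tup s w ∧ ∃ k, z k ∈ B := by
  classical
  simp [tupBad]

theorem card_tupBad_le (s : ℕ) (w B : Finset Ph) :
    (tupBad s w B).card ≤ s * (B.card * w.card ^ (s - 1)) := by
  classical
  have h1 : tupBad s w B ⊆ Finset.univ.biUnion fun k : Fin s =>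
      Fintype.piFinset fun i : Fin s => if i = k then B else w := by
    intro z hz
    obtain ⟨hz1, k, hk⟩ := mem_tupBad.1 hz
    rw [Finset.mem_biUnion]
    refine ⟨k, Finset.mem_univ _, ?_⟩
    rw [Fintype.mem_piFinset]
    intro i
    split_ifs with h
    · rw [h]; exact hk
    · exact (mem_tup.1 hz1).1 i
  refine (Finset.card_le_card h1).trans (Finset.card_biUnion_le.trans ?_)
  have h2 : ∀ k : Fin s, (Fintype.piFinset fun i : Fin s => if i = k then B else w).card =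
      B.card * w.card ^ (s - 1) := by
    intro k
    rw [Fintype.card_piFinset, ← Finset.mul_prod_erase _ _ (Finset.mem_univ k), if_pos rfl]
    congr 1
    rw [Finset.prod_congr rfl (g := fun _ => w.card) (fun i hi => by
      rw [if_neg (Finset.ne_of_mem_erase hi)]), Finset.prod_const,
      Finset.card_erase_of_mem (Finset.mem_univ k), Finset.card_univ, Fintype.card_fin]
  rw [Finset.sum_congr rfl fun k _ => h2 k, Finset.sum_const, Finset.card_univ, Fintype.card_fin,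
    smul_eq_mul]

/-- Tuples with a bad component are few if the expected number of bad points is `o(μ)`. -/
theorem exists_tupBad_le (h : GoodDatum f₀ κ) (s : ℕ) {δ : ℝ} (hδ : 0 < δ) :
    ∃ A : ℝ, 0 < A ∧ ∀ ε : ℝ, 0 < ε → ε ≤ 1 → ∀ B : Conf Ph → Finset Ph, (∀ c, B c ⊆ pts c) →
      (ENNReal.ofReal (mu ε ^ s))⁻¹ * ∫⁻ c, ((tupBad s (pts c) (B c)).card : ℝ≥0∞) ∂(PP f₀ ε) ≤
        ENNReal.ofReal A * ((ENNReal.ofReal (mu ε))⁻¹ * ∫⁻ c, ((B c).card : ℝ≥0∞) ∂(PP f₀ ε)) +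
          ENNReal.ofReal δ := by
  -- the truncation level
  obtain ⟨m, hm⟩ : ∃ m : ℕ, (s : ℝ) * cMom (s + 1) ≤ δ * (m + 1) := by
    obtain ⟨m, hm⟩ := exists_nat_ge ((s : ℝ) * cMom (s + 1) / δ)
    refine ⟨m, ?_⟩
    rw [div_le_iff₀ hδ] at hm
    nlinarith
  refine ⟨(s : ℝ) * ((m : ℝ) + 1) ^ (s - 1) + 1, by positivity, fun ε hε h1 B hB => ?_⟩
  have hprob := isProbability_PP (ε := ε) h
  set μ : ℝ≥0∞ := ENNReal.ofReal (mu ε) with hμ
  have hμ0 : μ ≠ 0 := (ENNReal.ofReal_pos.2 (mu_pos hε)).ne'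
  have hμt : μ ≠ ∞ := ENNReal.ofReal_ne_top
  have hμs : ENNReal.ofReal (mu ε ^ s) = μ ^ s := ENNReal.ofReal_pow (mu_pos hε).le s
  rcases Nat.eq_zero_or_pos s with hs0 | hs0
  · subst hs0
    have hz : ∀ c : Conf Ph, ((tupBad 0 (pts c) (B c)).card : ℝ≥0∞) = 0 := by
      intro c
      have := card_tupBad_le 0 (pts c) (B c)
      rw [zero_mul] at this
      rw [Nat.le_zero.1 this, Nat.cast_zero]
    simp only [hz, lintegral_zero, mul_zero]
    exact zero_le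
  set M : ℝ≥0∞ := (m : ℝ≥0∞) + 1 with hM
  have hM0 : M ≠ 0 := by rw [hM]; simp
  have hMt : M ≠ ∞ := by rw [hM]; exact ENNReal.add_ne_top.2 ⟨ENNReal.natCast_ne_top m, ENNReal.one_ne_top⟩
  have hpt : ∀ c : Conf Ph, ((tupBad s (pts c) (B c)).card : ℝ≥0∞) ≤
      (s : ℝ≥0∞) * ((M * μ)⁻¹ * (c.1 : ℝ≥0∞) ^ (s + 1)) +
        (s : ℝ≥0∞) * ((M * μ) ^ (s - 1) * ((B c).card : ℝ≥0∞)) := by
    intro c
    have h2 : ((tupBad s (pts c) (B c)).card : ℝ≥0∞) ≤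
        (s : ℝ≥0∞) * (((B c).card : ℝ≥0∞) * (c.1 : ℝ≥0∞) ^ (s - 1)) := by
      have h3 := card_tupBad_le s (pts c) (B c)
      have h4 : s * ((B c).card * (pts c).card ^ (s - 1)) ≤ s * ((B c).card * c.1 ^ (s - 1)) := by
        gcongr
        exact card_pts_le c
      have h5 : ((tupBad s (pts c) (B c)).card : ℝ≥0∞) ≤
        ((s * ((B c).card * c.1 ^ (s - 1)) : ℕ) : ℝ≥0∞) := Nat.cast_le.2 (h3.trans h4)
      simpa only [Nat.cast_mul, Nat.cast_pow] using h5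
    refine h2.trans ?_
    rw [← mul_add]
    gcongr
    rcases le_total (c.1 : ℝ≥0∞) (M * μ) with h3 | h3
    · refine le_trans ?_ le_add_self
      rw [mul_comm]
      gcongr
    · refine le_trans ?_ le_self_add
      have h4 : ((B c).card : ℝ≥0∞) ≤ (c.1 : ℝ≥0∞) :=
        Nat.cast_le.2 ((Finset.card_le_card (hB c)).trans (card_pts_le c))
      have hN0 : (c.1 : ℝ≥0∞) ≠ 0 := by
        intro hcon
        rw [hcon] at h3
        exact (mul_ne_zero hM0 hμ0) (le_antisymm h3 bot_le)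
      have hNt : (c.1 : ℝ≥0∞) ≠ ∞ := ENNReal.natCast_ne_top _
      calc ((B c).card : ℝ≥0∞) * (c.1 : ℝ≥0∞) ^ (s - 1)
          ≤ (c.1 : ℝ≥0∞) * (c.1 : ℝ≥0∞) ^ (s - 1) := by gcongr
        _ = (c.1 : ℝ≥0∞) ^ s := by rw [← pow_succ', Nat.sub_add_cancel hs0]
        _ = (c.1 : ℝ≥0∞)⁻¹ * (c.1 : ℝ≥0∞) ^ (s + 1) := by
            rw [pow_succ, mul_comm, mul_assoc, ENNReal.mul_inv_cancel hN0 hNt, mul_one]
        _ ≤ (M * μ)⁻¹ * (c.1 : ℝ≥0∞) ^ (s + 1) := by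
            gcongr
  have hmeas : Measurable fun c : Conf Ph =>
      (s : ℝ≥0∞) * ((M * μ)⁻¹ * (c.1 : ℝ≥0∞) ^ (s + 1)) :=
    ((measurable_num.pow_const _).const_mul _).const_mul _
  have hint : ∫⁻ c, ((tupBad s (pts c) (B c)).card : ℝ≥0∞) ∂(PP f₀ ε) ≤
      (s : ℝ≥0∞) * ((M * μ)⁻¹ * ((cMom (s + 1) : ℝ≥0∞) * μ ^ (s + 1))) +
        (s : ℝ≥0∞) * ((M * μ) ^ (s - 1) * ∫⁻ c, ((B c).card : ℝ≥0∞) ∂(PP f₀ ε)) := by
    calc ∫⁻ c, ((tupBad s (pts c) (B c)).card : ℝ≥0∞) ∂(PP f₀ ε)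
        ≤ ∫⁻ c, (s : ℝ≥0∞) * ((M * μ)⁻¹ * (c.1 : ℝ≥0∞) ^ (s + 1)) +
            (s : ℝ≥0∞) * ((M * μ) ^ (s - 1) * ((B c).card : ℝ≥0∞)) ∂(PP f₀ ε) :=
          lintegral_mono hpt
      _ = ∫⁻ c, (s : ℝ≥0∞) * ((M * μ)⁻¹ * (c.1 : ℝ≥0∞) ^ (s + 1)) ∂(PP f₀ ε) +
            ∫⁻ c, (s : ℝ≥0∞) * ((M * μ) ^ (s - 1) * ((B c).card : ℝ≥0∞)) ∂(PP f₀ ε) :=
          lintegral_add_left hmeas _
      _ ≤ _ := by
          gcongr
          · rw [lintegral_const_mul _ ((measurable_num.pow_const _).const_mul _),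
              lintegral_const_mul _ (measurable_num.pow_const _)]
            gcongr
            exact lintegral_num_pow_le h hε h1 (s + 1)
          · rw [lintegral_const_mul' _ _ (ENNReal.natCast_ne_top s), lintegral_const_mul' _ _
              (ENNReal.pow_ne_top (ENNReal.mul_ne_top hMt hμt))]
  rw [hμs]
  calc (μ ^ s)⁻¹ * ∫⁻ c, ((tupBad s (pts c) (B c)).card : ℝ≥0∞) ∂(PP f₀ ε)
      ≤ (μ ^ s)⁻¹ * ((s : ℝ≥0∞) * ((M * μ)⁻¹ * ((cMom (s + 1) : ℝ≥0∞) * μ ^ (s + 1))) +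
        (s : ℝ≥0∞) * ((M * μ) ^ (s - 1) * ∫⁻ c, ((B c).card : ℝ≥0∞) ∂(PP f₀ ε))) := by
        gcongr
    _ = (s : ℝ≥0∞) * cMom (s + 1) * M⁻¹ * ((μ ^ s)⁻¹ * (μ⁻¹ * μ ^ (s + 1))) +
        (s : ℝ≥0∞) * M ^ (s - 1) * (((μ ^ s)⁻¹ * μ ^ (s - 1)) *
          ∫⁻ c, ((B c).card : ℝ≥0∞) ∂(PP f₀ ε)) := by
        rw [mul_add, ENNReal.mul_inv (Or.inl hM0) (Or.inl hMt), mul_pow]
        ring
    _ = (s : ℝ≥0∞) * cMom (s + 1) * M⁻¹ +
        (s : ℝ≥0∞) * M ^ (s - 1) * (μ⁻¹ * ∫⁻ c, ((B c).card : ℝ≥0∞) ∂(PP f₀ ε)) := by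
        have e1 : (μ ^ s)⁻¹ * (μ⁻¹ * μ ^ (s + 1)) = 1 := by
          rw [pow_succ', ← mul_assoc μ⁻¹, ENNReal.inv_mul_cancel hμ0 hμt, one_mul,
            ENNReal.inv_mul_cancel (pow_ne_zero _ hμ0) (ENNReal.pow_ne_top hμt)]
        have e2 : (μ ^ s)⁻¹ * μ ^ (s - 1) = μ⁻¹ := by
          obtain ⟨r, rfl⟩ : ∃ r, s = r + 1 := ⟨s - 1, by omega⟩
          rw [Nat.add_sub_cancel, pow_succ', ENNReal.mul_inv (Or.inl hμ0) (Or.inl hμt), mul_assoc,
            ENNReal.inv_mul_cancel (pow_ne_zero _ hμ0) (ENNReal.pow_ne_top hμt), mul_one]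
        rw [e1, e2, mul_one]
    _ ≤ ENNReal.ofReal ((s : ℝ) * ((m : ℝ) + 1) ^ (s - 1) + 1) *
          (μ⁻¹ * ∫⁻ c, ((B c).card : ℝ≥0∞) ∂(PP f₀ ε)) + ENNReal.ofReal δ := by
        rw [add_comm]
        gcongr
        · rw [ENNReal.ofReal_add (by positivity) (by positivity),
            ENNReal.ofReal_mul (by positivity), ENNReal.ofReal_natCast,
            ENNReal.ofReal_pow (by positivity), ENNReal.ofReal_add (by positivity) (by positivity),
            ENNReal.ofReal_natCast, ENNReal.ofReal_one]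
          exact le_self_add
        · rw [← div_eq_mul_inv]
          refine ENNReal.div_le_of_le_mul ?_
          have e3 : ENNReal.ofReal δ * M = ENNReal.ofReal (δ * (m + 1)) := by
            rw [ENNReal.ofReal_mul hδ.le, ENNReal.ofReal_add (by positivity) (by positivity),
              ENNReal.ofReal_natCast, ENNReal.ofReal_one]
          rw [e3]
          have e4 : (s : ℝ≥0∞) * cMom (s + 1) = ENNReal.ofReal ((s : ℝ) * cMom (s + 1)) := by
            rw [ENNReal.ofReal_mul (by positivity), ENNReal.ofReal_natCast, ENNReal.ofReal_natCast]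
          rw [e4]
          exact ENNReal.ofReal_le_ofReal hm

end Vale.Agent.P119.GC
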