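import Vale.Agent.P119.GC.Phase

/-!
# Reduction of the kinetic limit to lower bounds

The total masses of the rescaled marginals are at most one, so lower bounds of the marginals by
functions that are close to `f^{⊗ s}` in `L¹` suffice.
-/

open MeasureTheory Set Filter Topology
open scoped ENNReal

namespace Vale.Agent.P119.GC

variable {f₀ : Ph → ℝ} {κ : ℝ} {Φ : E3 → ℝ} {T : ℝ} {s : ℕ} {f : ℝ → Ph → ℝ}

theorem expect_descFactorial_le (h : GoodDatum f₀ κ) {ε : ℝ} (hε : 0 < ε) (s : ℕ) :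
    (mu ε ^ s)⁻¹ * expect f₀ ε (fun N _ => ∑ _σ : Fin s ↪ Fin N, 1) ≤ 1 := by
  have hcs := h.canSeq hε
  have h1 := hcs.factorial_moment_le (mu_pos hε) s
  have hΞ : 0 < partitionFn f₀ ε := by
    rw [partitionFn_eq]
    exact hcs.partition_pos (mu_pos hε)
  have hμs : 0 < mu ε ^ s := pow_pos (mu_pos hε) s
  have e : expect f₀ ε (fun N _ => ∑ _σ : Fin s ↪ Fin N, 1) =
      (partitionFn f₀ ε)⁻¹ * ∑' N, aw (mu ε) N * (N.descFactorial s : ℝ) *
        ∫ Z : Fin N → Ph, wt f₀ ε Z := by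
    rw [expect_eq]
    congr 1
    refine tsum_congr fun N => ?_
    rw [mul_assoc]
    congr 1
    rw [integral_mul_const, Finset.sum_const, Finset.card_univ, Fintype.card_embedding_eq]
    simp only [Fintype.card_fin, nsmul_eq_mul, mul_one]
    ring
  rw [e]
  calc (mu ε ^ s)⁻¹ * ((partitionFn f₀ ε)⁻¹ * ∑' N, aw (mu ε) N * (N.descFactorial s : ℝ) *
        ∫ Z : Fin N → Ph, wt f₀ ε Z)
      ≤ (mu ε ^ s)⁻¹ * ((partitionFn f₀ ε)⁻¹ * (mu ε ^ s * partitionFn f₀ ε)) := by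
        rw [partitionFn_eq] at hΞ ⊢
        gcongr
    _ = 1 := by field_simp

/-- If `∫ a G ≤ ∫ a F + δ` for all measurable `0 ≤ a ≤ 1`, then the positive part of `G - F` has
mass at most `δ`. -/
theorem integral_pos_part_le {F G : (Fin s → Ph) → ℝ} {δ : ℝ} (hF : Integrable F)
    (hG : Integrable G)
    (h : ∀ a : (Fin s → Ph) → ℝ, Measurable a → (∀ z, 0 ≤ a z) → (∀ z, a z ≤ 1) →
      ∫ z, a z * G z ≤ (∫ z, a z * F z) + δ) : ∫ z, max (G z - F z) 0 ≤ δ := by
  have hsub : Integrable (fun z => G z - F z) := hG.sub hF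
  obtain ⟨H, hHm, hHe⟩ := hsub.aestronglyMeasurable
  have hHm' : Measurable H := hHm.measurable
  set a : (Fin s → Ph) → ℝ := fun z => if 0 < H z then 1 else 0 with ha
  have ham : Measurable a :=
    Measurable.ite (measurableSet_lt measurable_const hHm') measurable_const measurable_const
  have h0 : ∀ z, 0 ≤ a z := fun z => by simp only [ha]; split_ifs <;> norm_num
  have h1 : ∀ z, a z ≤ 1 := fun z => by simp only [ha]; split_ifs <;> norm_num
  have hia : ∀ {K : (Fin s → Ph) → ℝ}, Integrable K → Integrable (fun z => a z * K z) := by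
    intro K hK
    refine hK.bdd_mul (c := 1) ham.aestronglyMeasurable (Eventually.of_forall fun z => ?_)
    rw [Real.norm_eq_abs, abs_of_nonneg (h0 z)]
    exact h1 z
  have h2 := h a ham h0 h1
  have h3 : ∫ z, a z * (G z - F z) ≤ δ := by
    have : (fun z => a z * (G z - F z)) = fun z => a z * G z - a z * F z := by
      funext z; ring
    rw [this, integral_sub (hia hG) (hia hF)]
    linarith
  refine le_of_eq_of_le (integral_congr_ae ?_) h3
  filter_upwards [hHe] with z hz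
  rw [hz]
  simp only [ha]
  split_ifs with hpos
  · rw [max_eq_left hpos.le]; ring
  · rw [max_eq_right (not_lt.1 hpos)]; ring

/-- **Reduction to lower bounds.** -/
theorem kineticLimit_of_lower (h : GoodDatum f₀ κ)
    (hf : ∀ t ∈ Icc 0 T, Integrable (f t) ∧ (∀ z, 0 ≤ f t z) ∧ ∫ z, f t z = 1)
    (hS : ∀ ε ∈ Ioo (0 : ℝ) 1, ∀ t ∈ Icc 0 T, GoodFlow Φ ε t)
    (hlow : ∀ δ : ℝ, 0 < δ → ∀ᶠ ε in 𝓝[>] (0 : ℝ), ∀ t ∈ Icc 0 T,
      ∀ a : (Fin s → Ph) → ℝ, Measurable a → (∀ z, 0 ≤ a z) → (∀ z, a z ≤ 1) →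
        ∫ z, a z * ∏ k, f t (z k) ≤ (mu ε ^ s)⁻¹ *
          expect f₀ ε (fun N Z => ∑ σ : Fin s ↪ Fin N, a (fun k => flow Φ ε t Z (σ k))) + δ) :
    KineticLimit Φ f₀ T f s := by
  refine ⟨fun ε hε t ht => exists_marginal h hε.1 (hS ε hε t ht) s, fun F hF => ?_⟩
  rw [ENNReal.tendsto_nhds_zero]
  intro η hη
  obtain ⟨δ, hδ, hδη⟩ : ∃ δ : ℝ, 0 < δ ∧ ENNReal.ofReal (2 * δ) ≤ η := by
    rcases eq_or_ne η ∞ with rfl | htop
    · exact ⟨1, one_pos, le_top⟩
    · have hpos : 0 < η.toReal := ENNReal.toReal_pos hη.ne' htop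
      refine ⟨η.toReal / 2, by positivity, ?_⟩
      rw [show 2 * (η.toReal / 2) = η.toReal by ring, ENNReal.ofReal_toReal htop]
  filter_upwards [hlow δ hδ, Ioo_mem_nhdsGT (show (0 : ℝ) < 1 by norm_num)] with ε hlowε hε
  refine (iSup₂_le fun t ht => ?_).trans hδη
  have hFt := hF ε hε t ht
  have hprod : Integrable (fun z : Fin s → Ph => ∏ k, f t (z k)) :=
    Integrable.fintype_prod (fun _ => (hf t ht).1)
  have hprod1 : ∫ z : Fin s → Ph, ∏ k, f t (z k) = 1 := by
    have h2 : ∫ z : Fin s → Ph, ∏ k, f t (z k) = ∏ _k : Fin s, ∫ z, f t z :=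
      integral_fin_nat_prod_volume_eq_prod (fun _ : Fin s => f t)
    rw [h2, (hf t ht).2.2]
    simp
  have hle : ∫ z, max (∏ k, f t (z k) - F ε t z) 0 ≤ δ := by
    refine integral_pos_part_le hFt.1 hprod fun a ham h0 h1 => ?_
    rw [hFt.2 a ham ⟨1, fun z => by rw [abs_of_nonneg (h0 z)]; exact h1 z⟩]
    exact hlowε t ht a ham h0 h1
  have hF1 : ∫ z, F ε t z ≤ 1 := by
    have h3 := hFt.2 (fun _ => 1) measurable_const ⟨1, fun _ => by simp⟩
    simp only [one_mul] at h3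
    rw [h3]
    exact expect_descFactorial_le h hε.1 s
  have hFP : Integrable (fun z => F ε t z - ∏ k, f t (z k)) := hFt.1.sub hprod
  have hPF : Integrable (fun z => ∏ k, f t (z k) - F ε t z) := hprod.sub hFt.1
  have htot : ∫ z, ‖F ε t z - ∏ k, f t (z k)‖ ≤ 2 * δ := by
    have h6 : ∫ z, ‖F ε t z - ∏ k, f t (z k)‖ =
        ∫ z, ((F ε t z - ∏ k, f t (z k)) + 2 * max (∏ k, f t (z k) - F ε t z) 0) := by
      refine integral_congr_ae (Eventually.of_forall fun z => ?_)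
      simp only
      rw [Real.norm_eq_abs]
      rcases le_total (F ε t z) (∏ k, f t (z k)) with hle' | hle'
      · rw [max_eq_left (by linarith), abs_of_nonpos (by linarith)]
        ring
      · rw [max_eq_right (by linarith), abs_of_nonneg (by linarith)]
        ring
    have h7 : ∫ z, ((F ε t z - ∏ k, f t (z k)) + 2 * max (∏ k, f t (z k) - F ε t z) 0) =
        (∫ z, (F ε t z - ∏ k, f t (z k))) + ∫ z, 2 * max (∏ k, f t (z k) - F ε t z) 0 :=
      integral_add hFP (hPF.pos_part.const_mul 2)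
    rw [h6, h7, integral_sub hFt.1 hprod, hprod1, integral_const_mul]
    linarith
  calc ∫⁻ z, ‖F ε t z - ∏ k, f t (z k)‖ₑ
      = ENNReal.ofReal (∫ z, ‖F ε t z - ∏ k, f t (z k)‖) :=
        (ofReal_integral_norm_eq_lintegral_enorm hFP).symm
    _ ≤ ENNReal.ofReal (2 * δ) := ENNReal.ofReal_le_ofReal htot

end Vale.Agent.P119.GC
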