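import Vale.Agent.P119.GC.Phase

/-!
# Moments of the number of particles under the grand-canonical law
-/

open MeasureTheory Set Filter Topology
open scoped ENNReal

namespace Vale.Agent.P119.GC

variable {f₀ : Ph → ℝ} {κ ε : ℝ}

theorem inten_univ (h : GoodDatum f₀ κ) : inten f₀ ε univ = ENNReal.ofReal (mu ε) := by
  have := isProbabilityMeasure_law h.nonneg h.integrable h.integral_eq
  rw [inten, Measure.smul_apply, measure_univ, smul_eq_mul, mul_one]

/-- GNZ for the law of the problem. -/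
theorem gnz_PP [dec : DecidableEq Ph] (h : GoodDatum f₀ κ) (hε : 0 ≤ ε) (n : ℕ)
    {F : (Fin n → Ph) → Finset Ph → ℝ≥0∞}
    (hF : Measurable fun p : (Fin n → Ph) × Conf Ph => F p.1 (pts p.2)) :
    ∫⁻ c, ∑ z ∈ tup n (pts c), F z (pts c \ Finset.univ.image z) ∂(PP f₀ ε) =
    ∫⁻ z in {z | PW (Cx ε) z}, ∫⁻ c in {c | Cmp (Cx ε) z (pts c)}, F z (pts c) ∂(PP f₀ ε)
      ∂(Measure.pi fun _ : Fin n => inten f₀ ε) := by
  have := isFiniteMeasure_inten (ε := ε) h
  have hd : dec = fun a b => Classical.propDecidable (a = b) := Subsingleton.elim _ _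
  subst hd
  exact gnz (ν := inten f₀ ε) (measurableSet_Cx ε) (Cx_symm ε) (Cx_irrefl hε) n hF

theorem gnz_PP_le [dec : DecidableEq Ph] (h : GoodDatum f₀ κ) (hε : 0 ≤ ε) (n : ℕ)
    {F : (Fin n → Ph) → Finset Ph → ℝ≥0∞}
    (hF : Measurable fun p : (Fin n → Ph) × Conf Ph => F p.1 (pts p.2)) :
    ∫⁻ c, ∑ z ∈ tup n (pts c), F z (pts c \ Finset.univ.image z) ∂(PP f₀ ε) ≤
    ∫⁻ z, ∫⁻ c, F z (pts c) ∂(PP f₀ ε) ∂(Measure.pi fun _ : Fin n => inten f₀ ε) := by
  have := isFiniteMeasure_inten (ε := ε) h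
  have hd : dec = fun a b => Classical.propDecidable (a = b) := Subsingleton.elim _ _
  subst hd
  exact gnz_le (ν := inten f₀ ε) (measurableSet_Cx ε) (Cx_symm ε) (Cx_irrefl hε) n hF

/-- The factorial moments. -/
theorem lintegral_card_tup_le (h : GoodDatum f₀ κ) (hε : 0 ≤ ε) (n : ℕ) :
    ∫⁻ c, ((tup n (pts c)).card : ℝ≥0∞) ∂(PP f₀ ε) ≤ ENNReal.ofReal (mu ε) ^ n := by
  classical
  have := isFiniteMeasure_inten (ε := ε) h
  have := isProbability_PP (ε := ε) h
  have h1 := gnz_PP_le (ε := ε) h hε n (F := fun _ _ => 1) measurable_const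
  simp only [Finset.sum_const, nsmul_eq_mul, mul_one, lintegral_one, measure_univ,
    Measure.pi_univ, inten_univ h, Finset.prod_const, Finset.card_univ, Fintype.card_fin] at h1
  exact h1

theorem card_pts_le (c : Conf Ph) : (pts c).card ≤ c.1 := by
  have h1 : ∀ d : DecidableEq Ph, (@Finset.image _ _ d c.2 Finset.univ).card ≤ c.1 := fun d =>
    Finset.card_image_le.trans (by simp)
  exact h1 _

theorem card_pts {c : Conf Ph} (hc : Function.Injective c.2) : (pts c).card = c.1 := by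
  have h1 : ∀ d : DecidableEq Ph, (@Finset.image _ _ d c.2 Finset.univ).card = c.1 := fun d => by
    rw [Finset.card_image_of_injective _ hc]
    simp
  exact h1 _

theorem card_tup (n : ℕ) (w : Finset Ph) : (tup n w).card = w.card.descFactorial n := by
  classical
  have h1 : (tup n w).card = Fintype.card (Fin n ↪ w) := by
    rw [← Fintype.card_coe]
    refine Fintype.card_congr ⟨fun z => ⟨fun i => ⟨z.1 i, (mem_tup.1 z.2).1 i⟩, fun i j h =>
      (mem_tup.1 z.2).2 (congrArg Subtype.val h)⟩, fun σ => ⟨fun i => (σ i : Ph), mem_tup.2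
      ⟨fun i => (σ i).2, fun i j h => σ.injective (Subtype.ext h)⟩⟩, fun z => rfl, fun σ => rfl⟩
  rw [h1, Fintype.card_embedding_eq, Fintype.card_fin, Fintype.card_coe]

end Vale.Agent.P119.GC
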