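import Mathlib

/-!
# Finite point configurations with pairwise exclusion: the grand-canonical law and the GNZ formula

Everything is stated for an arbitrary measurable space `α` of points, a finite measure `ν` (the
intensity `μ f₀ dz`) and a symmetric measurable relation `C` (compatibility).  Configurations are
labelled (`Conf α = Σ N, Fin N → α`), functionals depend on the finite set of points only.
-/

open MeasureTheory Set
open scoped ENNReal

namespace Vale.Agent.P119.GC

variable {α β : Type*}

/-- Labelled finite configurations. -/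
abbrev Conf (α : Type*) := Σ N : ℕ, (Fin N → α)

open Classical in
/-- The set of points of a labelled configuration. -/
noncomputable def pts (c : Conf α) : Finset α := Finset.univ.image c.2

theorem mem_pts {c : Conf α} {a : α} : a ∈ pts c ↔ ∃ i, c.2 i = a := by
  classical
  simp [pts]

theorem mem_pts_mk {N : ℕ} (Z : Fin N → α) (a : α) : a ∈ pts ⟨N, Z⟩ ↔ ∃ i, Z i = a := mem_pts

/-- The labelled configuration of `N` points. -/
def mk (N : ℕ) (Z : Fin N → α) : Conf α := ⟨N, Z⟩

theorem mk_injective (N : ℕ) : Function.Injective (mk N : (Fin N → α) → Conf α) :=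
  fun _ _ h => eq_of_heq (Sigma.mk.inj h).2

/-- All pairs are related. -/
def PW (C : α → α → Prop) {ι : Type*} (z : ι → α) : Prop := ∀ i j, i ≠ j → C (z i) (z j)

variable [MeasurableSpace α] [MeasurableSpace β]

/-- A function of a configuration is measurable iff it is for each number of points. -/
theorem measurable_conf {f : Conf α → β} :
    Measurable f ↔ ∀ N, Measurable fun Z : Fin N → α => f ⟨N, Z⟩ := by
  constructor
  · intro h N
    exact h.comp (measurable_iff_comap_le.2 (by
      rw [Sigma.instMeasurableSpace, MeasurableSpace.comap_le_iff_le_map]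
      exact iInf_le _ N))
  · intro h s hs
    rw [Sigma.instMeasurableSpace, MeasurableSpace.measurableSet_iInf]
    exact fun N => h N hs

theorem measurable_mk (N : ℕ) : Measurable (mk N : (Fin N → α) → Conf α) :=
  measurable_conf.1 measurable_id N

theorem measurableSet_conf {s : Set (Conf α)} :
    MeasurableSet s ↔ ∀ N, MeasurableSet {Z : Fin N → α | (⟨N, Z⟩ : Conf α) ∈ s} := by
  rw [Sigma.instMeasurableSpace, MeasurableSpace.measurableSet_iInf]
  rfl

/-- A function on `X × Conf α` is measurable iff it is for each number of points. -/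
theorem measurable_prod_conf {X : Type*} [MeasurableSpace X] {f : X × Conf α → β} :
    Measurable f ↔ ∀ N, Measurable fun p : X × (Fin N → α) => f (p.1, ⟨N, p.2⟩) := by
  constructor
  · intro h N
    exact h.comp (measurable_fst.prodMk ((measurable_mk N).comp measurable_snd))
  · intro h s hs
    have key : f ⁻¹' s = ⋃ N, Prod.map id (mk N) ''
        ((fun p : X × (Fin N → α) => f (p.1, ⟨N, p.2⟩)) ⁻¹' s) := by
      ext ⟨x, N, Z⟩
      simp only [mem_preimage, mem_iUnion, mem_image, Prod.exists, Prod.map_apply, id]
      constructor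
      · intro h; exact ⟨N, x, Z, h, rfl⟩
      · rintro ⟨M, y, W, h, e⟩
        obtain ⟨rfl, e⟩ := Prod.mk.inj e
        cases e
        exact h
    rw [key]
    refine MeasurableSet.iUnion fun N => ?_
    have hemb : MeasurableEmbedding (mk N : (Fin N → α) → Conf α) := by
      refine ⟨mk_injective N, measurable_mk N, fun t ht => ?_⟩
      rw [measurableSet_conf]
      intro M
      by_cases hM : M = N
      · subst hM
        convert ht using 1
        ext Z
        constructor
        · rintro ⟨W, hW, e⟩
          rw [← mk_injective M e]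
          exact hW
        · intro h'
          exact ⟨Z, h', rfl⟩
      · convert MeasurableSet.empty using 1
        ext Z
        simp only [mem_empty_iff_false, iff_false]
        rintro ⟨W, -, e⟩
        exact hM (Sigma.mk.inj e).1.symm
    exact (MeasurableEmbedding.id.prodMap hemb).measurableSet_image.2 (h N hs)

section Law

variable (ν : Measure α) (C : α → α → Prop)

/-- The unnormalised grand-canonical measure: `1{pairwise C} ν^N / N!` on configurations of `N`
points. -/
noncomputable def pre : Measure (Conf α) :=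
  Measure.sum fun N => ((N.factorial : ℝ≥0∞)⁻¹ •
    (Measure.pi fun _ : Fin N => ν).restrict {Z | PW C Z}).map (mk N)

theorem lintegral_pre {F : Conf α → ℝ≥0∞} (hF : Measurable F) :
    ∫⁻ c, F c ∂(pre ν C) = ∑' N : ℕ, (N.factorial : ℝ≥0∞)⁻¹ *
      ∫⁻ Z in {Z | PW C Z}, F ⟨N, Z⟩ ∂(Measure.pi fun _ : Fin N => ν) := by
  rw [pre, lintegral_sum_measure]
  refine tsum_congr fun N => ?_
  rw [lintegral_map hF (measurable_mk N), lintegral_smul_measure, smul_eq_mul]
  rfl

/-- The grand-canonical law. -/
noncomputable def gc : Measure (Conf α) := (pre ν C univ)⁻¹ • pre ν C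

variable {ν C}

theorem pre_univ [IsFiniteMeasure ν] : pre ν C univ ≤ ENNReal.ofReal (Real.exp (ν.real univ)) := by
  have h := lintegral_pre ν C (F := fun _ => 1) measurable_const
  rw [lintegral_one] at h
  rw [h]
  have hle : ∀ N : ℕ, (N.factorial : ℝ≥0∞)⁻¹ *
      ∫⁻ _ in {Z | PW C Z}, 1 ∂(Measure.pi fun _ : Fin N => ν) ≤
      ENNReal.ofReal (ν.real univ ^ N / N.factorial) := by
    intro N
    rw [setLIntegral_one, ENNReal.ofReal_div_of_pos (by positivity), ENNReal.ofReal_natCast,
      ENNReal.div_eq_inv_mul, ENNReal.ofReal_pow measureReal_nonneg, measureReal_def,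
      ENNReal.ofReal_toReal (measure_ne_top _ _)]
    gcongr
    calc (Measure.pi fun _ : Fin N => ν) {Z | PW C Z} ≤ (Measure.pi fun _ : Fin N => ν) univ :=
          measure_mono (subset_univ _)
      _ = ν univ ^ N := by rw [Measure.pi_univ]; simp
  refine (ENNReal.tsum_le_tsum hle).trans (le_of_eq ?_)
  rw [← ENNReal.ofReal_tsum_of_nonneg (fun N => by positivity)
    (Real.summable_pow_div_factorial _), Real.exp_eq_exp_ℝ, NormedSpace.exp_eq_tsum_div]

theorem one_le_pre_univ : 1 ≤ pre ν C univ := by
  have h := lintegral_pre ν C (F := fun _ => 1) measurable_const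
  rw [lintegral_one] at h
  rw [h]
  refine le_trans (le_of_eq ?_) (ENNReal.le_tsum 0)
  have hs : {Z : Fin 0 → α | PW C Z} = univ := eq_univ_of_forall fun Z i => i.elim0
  simp [hs]

theorem pre_univ_ne_zero : pre ν C univ ≠ 0 :=
  (lt_of_lt_of_le one_pos one_le_pre_univ).ne'

theorem pre_univ_ne_top [IsFiniteMeasure ν] : pre ν C univ ≠ ∞ :=
  (pre_univ.trans_lt ENNReal.ofReal_lt_top).ne

instance [IsFiniteMeasure ν] : IsFiniteMeasure (pre ν C) := ⟨pre_univ_ne_top.lt_top⟩

instance [IsFiniteMeasure ν] : IsProbabilityMeasure (gc ν C) :=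
  ⟨by rw [gc, Measure.smul_apply, smul_eq_mul,
    ENNReal.inv_mul_cancel pre_univ_ne_zero pre_univ_ne_top]⟩

theorem lintegral_gc (F : Conf α → ℝ≥0∞) :
    ∫⁻ c, F c ∂(gc ν C) = (pre ν C univ)⁻¹ * ∫⁻ c, F c ∂(pre ν C) := by
  rw [gc, lintegral_smul_measure, smul_eq_mul]

/-- Almost surely the points are pairwise compatible. -/
theorem ae_PW (hC : MeasurableSet {p : α × α | C p.1 p.2}) : ∀ᵐ c ∂(gc ν C), PW C c.2 := by
  have hm : MeasurableSet {c : Conf α | PW C c.2} := by
    rw [measurableSet_conf]
    intro N
    have : {Z : Fin N → α | (⟨N, Z⟩ : Conf α) ∈ {c : Conf α | PW C c.2}} =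
        ⋂ i, ⋂ j, ⋂ (_ : i ≠ j), {Z | C (Z i) (Z j)} := by
      ext Z; simp [PW]
    rw [this]
    refine MeasurableSet.iInter fun i => MeasurableSet.iInter fun j => MeasurableSet.iInter fun _ => ?_
    exact measurableSet_preimage
      (f := fun Z : Fin N → α => (Z i, Z j)) ((measurable_pi_apply i).prodMk (measurable_pi_apply j)) hC
  rw [ae_iff]
  have h1 : pre ν C {c | ¬ PW C c.2} = 0 := by
    have hc : MeasurableSet {c : Conf α | ¬ PW C c.2} := hm.compl
    rw [pre, Measure.sum_apply _ hc, ENNReal.tsum_eq_zero]
    intro N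
    rw [Measure.map_apply (measurable_mk N) hc, Measure.smul_apply, smul_eq_mul]
    refine mul_eq_zero_of_right _ ?_
    rw [Measure.restrict_apply ((measurable_mk N) hc)]
    convert measure_empty (μ := Measure.pi fun _ : Fin N => ν) using 2
    ext Z
    simp [mk]
  rw [gc, Measure.smul_apply, h1, smul_zero]

end Law

end Vale.Agent.P119.GC
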